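import Mathlib.Analysis.SpecialFunctions.Log.Basic
import Mathlib.Analysis.SpecialFunctions.Pow.Asymptotics
import Mathlib.Analysis.SpecialFunctions.Sqrt
import Mathlib.Tactic

/-!
The numerical calculus of the exponent budget: comparison of monomials in `n, y, V, T` on a box,
through logarithms (everything becomes linear in `log n, log y, log V, log T`).

Use: `refine le_of_log (by positivity) (by positivity) ?_`, then
`simp (disch := positivity) only [Real.log_mul, Real.log_div, Real.log_inv, Real.log_rpow,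
  Real.log_pow, Real.log_sqrt, ..]`, then `nlinarith`/`linarith` with `Bx`, `ev_log`.
-/

open Filter

namespace Vale.Agent.P146.H470

/-- comparison of positive numbers through their logarithms -/
lemma le_of_log {x z : ℝ} (hx : 0 < x) (hz : 0 < z) (h : Real.log x ≤ Real.log z) : x ≤ z :=
  (Real.log_le_log_iff hx hz).1 h

lemma lt_of_log {x z : ℝ} (hx : 0 < x) (hz : 0 < z) (h : Real.log x < Real.log z) : x < z :=
  (Real.log_lt_log_iff hx hz).1 h

/-- `K ≤ θ log n` for all large `n` -/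
lemma ev_log {θ : ℝ} (hθ : 0 < θ) (K : ℝ) : ∀ᶠ n : ℕ in atTop, K ≤ θ * Real.log n := by
  have h := (Real.tendsto_log_atTop.comp tendsto_natCast_atTop_atTop).eventually_ge_atTop (K / θ)
  filter_upwards [h] with n hn
  have : K / θ ≤ Real.log n := hn
  rw [div_le_iff₀ hθ] at this
  linarith

/-- `log log n ≤ θ log n` for all large `n` -/
lemma ev_loglog {θ : ℝ} (hθ : 0 < θ) :
    ∀ᶠ n : ℕ in atTop, Real.log (Real.log n) ≤ θ * Real.log n := by
  have h1 : Tendsto (fun n : ℕ => Real.log (n : ℝ)) atTop atTop :=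
    Real.tendsto_log_atTop.comp tendsto_natCast_atTop_atTop
  have h2 := (Real.isLittleO_log_id_atTop.comp_tendsto h1).bound hθ
  filter_upwards [h2, h1.eventually_ge_atTop 1] with n hn h1n
  simp only [Function.comp, id, Real.norm_eq_abs] at hn
  rw [abs_of_nonneg (show (0 : ℝ) ≤ Real.log n by linarith)] at hn
  exact (le_abs_self _).trans hn

/-- `3 ≤ n` and `1 ≤ log n` for all large `n` -/
lemma ev_three : ∀ᶠ n : ℕ in atTop, (3 : ℝ) ≤ n ∧ 1 ≤ Real.log n := by
  filter_upwards [eventually_ge_atTop 3, ev_log one_pos 1] with n hn h1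
  refine ⟨by exact_mod_cast hn, by linarith⟩

/-- any power `n ^ θ` beats any constant times any power of `log n` -/
lemma ev_pow {θ : ℝ} (hθ : 0 < θ) (C : ℝ) (p : ℕ) :
    ∀ᶠ n : ℕ in atTop, C * Real.log n ^ p ≤ (n : ℝ) ^ θ := by
  have hp : 0 < θ / (2 * ((p : ℝ) + 1)) := by positivity
  filter_upwards [ev_log (half_pos hθ) (Real.log (max C 1)), ev_loglog hp, ev_three]
    with n h1 h2 h3
  obtain ⟨h3, h4⟩ := h3
  have hn : (0 : ℝ) < n := by linarith
  have hL : 0 < Real.log n := by linarith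
  have hC : (0 : ℝ) < max C 1 := lt_max_of_lt_right one_pos
  refine (mul_le_mul_of_nonneg_right (le_max_left C 1) (by positivity)).trans ?_
  refine le_of_log (by positivity) (by positivity) ?_
  rw [Real.log_mul hC.ne' (by positivity), Real.log_pow, Real.log_rpow hn]
  have h5 : (p : ℝ) * Real.log (Real.log n) ≤ θ / 2 * Real.log n := by
    calc (p : ℝ) * Real.log (Real.log n) ≤ p * (θ / (2 * ((p : ℝ) + 1)) * Real.log n) :=
          mul_le_mul_of_nonneg_left h2 (Nat.cast_nonneg p)
      _ = θ / 2 * Real.log n * (p / ((p : ℝ) + 1)) := by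
          field_simp
      _ ≤ θ / 2 * Real.log n * 1 := by
          refine mul_le_mul_of_nonneg_left ?_ (by positivity)
          rw [div_le_one (by positivity)]
          linarith
      _ = _ := mul_one _
  linarith

/-- **The box**: `y ∈ [n^(-u1)/A, A n^(-u0)]`, `V ∈ [n^(-d1) y^3/A, A n^(-d0) y^3]` in logarithmic
form, `K = log A`. -/
structure Bx (u0 u1 d0 d1 K : ℝ) (n : ℕ) (y V : ℝ) : Prop where
  n1 : (1 : ℝ) < n
  y0 : 0 < y
  V0 : 0 < V
  yl : -u1 * Real.log n - K ≤ Real.log y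
  yu : Real.log y ≤ -u0 * Real.log n + K
  Vl : -d1 * Real.log n + 3 * Real.log y - K ≤ Real.log V
  Vu : Real.log V ≤ -d0 * Real.log n + 3 * Real.log y + K

lemma bx_of {u0 u1 d0 d1 A : ℝ} {n : ℕ} {y V : ℝ} (hA : 1 ≤ A) (hn : (1 : ℝ) < n)
    (h1 : (n : ℝ) ^ (-u1) ≤ A * y) (h2 : y ≤ A * (n : ℝ) ^ (-u0))
    (h3 : (n : ℝ) ^ (-d1) * y ^ 3 ≤ A * V) (h4 : V ≤ A * ((n : ℝ) ^ (-d0) * y ^ 3)) :
    Bx u0 u1 d0 d1 (Real.log A) n y V := by
  have hn0 : (0 : ℝ) < n := by linarith
  have hA0 : 0 < A := by linarith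
  have hy : 0 < y := by
    have : 0 < A * y := lt_of_lt_of_le (Real.rpow_pos_of_pos hn0 _) h1
    exact (pos_iff_pos_of_mul_pos this).1 hA0
  have hV : 0 < V := by
    have : 0 < A * V := lt_of_lt_of_le (by positivity) h3
    exact (pos_iff_pos_of_mul_pos this).1 hA0
  have g1 := Real.log_le_log (by positivity) h1
  have g2 := Real.log_le_log hy h2
  have g3 := Real.log_le_log (by positivity) h3
  have g4 := Real.log_le_log hV h4
  simp (disch := positivity) only [Real.log_mul, Real.log_rpow, Real.log_pow] at g1 g2 g3 g4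
  push_cast at g3 g4
  exact ⟨hn, hy, hV, by linarith, by linarith, by linarith, by linarith⟩

section

variable {u0 u1 d0 d1 K : ℝ} {n : ℕ} {y V : ℝ}

lemma Bx.n0 (h : Bx u0 u1 d0 d1 K n y V) : (0 : ℝ) < n := lt_trans one_pos h.n1

lemma Bx.L0 (h : Bx u0 u1 d0 d1 K n y V) : 0 < Real.log n := Real.log_pos h.n1

/-- an affine function of `log y` on the box is bounded by its values at the two ends -/
lemma lin_y {L ly b : ℝ} (h1 : -u1 * L - K ≤ ly) (h2 : ly ≤ -u0 * L + K) {R : ℝ}
    (e0 : b * (-u0 * L + K) ≤ R) (e1 : b * (-u1 * L - K) ≤ R) : b * ly ≤ R := by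
  rcases le_total 0 b with hb | hb
  · exact (mul_le_mul_of_nonneg_left h2 hb).trans e0
  · exact (mul_le_mul_of_nonpos_left h1 hb).trans e1

end

/-- **Monomials on the box, no `T`.** `C n^a y^b V^c ≤ 1` for all large `n`, uniformly on the box,
as soon as the exponent is negative at the four corners. -/
theorem mono_box {u0 u1 d0 d1 : ℝ} (K C a b c : ℝ)
    (h00 : a - b * u0 - c * (d0 + 3 * u0) < 0) (h10 : a - b * u1 - c * (d0 + 3 * u1) < 0)
    (h01 : a - b * u0 - c * (d1 + 3 * u0) < 0) (h11 : a - b * u1 - c * (d1 + 3 * u1) < 0) :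
    ∀ᶠ n : ℕ in atTop, ∀ y V, Bx u0 u1 d0 d1 K n y V →
      C * ((n : ℝ) ^ a * y ^ b * V ^ c) ≤ 1 := by
  set θ := min (min (-(a - b * u0 - c * (d0 + 3 * u0))) (-(a - b * u1 - c * (d0 + 3 * u1))))
    (min (-(a - b * u0 - c * (d1 + 3 * u0))) (-(a - b * u1 - c * (d1 + 3 * u1)))) with hθ
  have hθ0 : 0 < θ := by
    simp only [hθ, lt_min_iff]
    exact ⟨⟨by linarith, by linarith⟩, ⟨by linarith, by linarith⟩⟩
  have t1 : θ ≤ -(a - b * u0 - c * (d0 + 3 * u0)) := (min_le_left _ _).trans (min_le_left _ _)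
  have t2 : θ ≤ -(a - b * u1 - c * (d0 + 3 * u1)) := (min_le_left _ _).trans (min_le_right _ _)
  have t3 : θ ≤ -(a - b * u0 - c * (d1 + 3 * u0)) := (min_le_right _ _).trans (min_le_left _ _)
  have t4 : θ ≤ -(a - b * u1 - c * (d1 + 3 * u1)) := (min_le_right _ _).trans (min_le_right _ _)
  set K' : ℝ := Real.log (max C 1) + (|b| + 4 * |c|) * |K| with hK'
  filter_upwards [ev_log hθ0 K'] with n hn y V h
  have hn0 := h.n0
  have hL := h.L0
  have hC : (0 : ℝ) < max C 1 := lt_max_of_lt_right one_pos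
  have hy := h.y0
  have hV := h.V0
  refine (mul_le_mul_of_nonneg_right (le_max_left C 1) (by positivity)).trans ?_
  refine le_of_log (by positivity) one_pos ?_
  simp (disch := positivity) only [Real.log_mul, Real.log_rpow, Real.log_one]
  set L := Real.log (n : ℝ) with hLd
  -- the field
  have v1 : c * Real.log V ≤ max (c * (-d0 * L + 3 * Real.log y)) (c * (-d1 * L + 3 * Real.log y))
      + |c| * |K| := by
    rcases le_total 0 c with hc | hc
    · have := mul_le_mul_of_nonneg_left h.Vu hc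
      have e : c * K ≤ |c| * |K| := by rw [← abs_mul]; exact le_abs_self _
      have e2 := le_max_left (c * (-d0 * L + 3 * Real.log y)) (c * (-d1 * L + 3 * Real.log y))
      nlinarith
    · have := mul_le_mul_of_nonpos_left h.Vl hc
      have e : -(c * K) ≤ |c| * |K| := by rw [← abs_mul]; exact neg_le_abs _
      have e2 := le_max_right (c * (-d0 * L + 3 * Real.log y)) (c * (-d1 * L + 3 * Real.log y))
      nlinarith
  -- the exponent `y`
  have key : ∀ d : ℝ, θ ≤ -(a - b * u0 - c * (d + 3 * u0)) → θ ≤ -(a - b * u1 - c * (d + 3 * u1)) →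
      a * L + b * Real.log y + c * (-d * L + 3 * Real.log y) ≤
        -θ * L + (|b| + 3 * |c|) * |K| := by
    intro d q0 q1
    have e1 : (b + 3 * c) * K ≤ (|b| + 3 * |c|) * |K| := by
      calc (b + 3 * c) * K ≤ |(b + 3 * c) * K| := le_abs_self _
        _ = |b + 3 * c| * |K| := abs_mul _ _
        _ ≤ (|b| + |3 * c|) * |K| := mul_le_mul_of_nonneg_right (abs_add_le _ _) (abs_nonneg _)
        _ = _ := by rw [abs_mul, abs_of_pos (by norm_num : (0 : ℝ) < 3)]
    have e2 : -((b + 3 * c) * K) ≤ (|b| + 3 * |c|) * |K| := by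
      calc -((b + 3 * c) * K) ≤ |(b + 3 * c) * K| := neg_le_abs _
        _ = |b + 3 * c| * |K| := abs_mul _ _
        _ ≤ (|b| + |3 * c|) * |K| := mul_le_mul_of_nonneg_right (abs_add_le _ _) (abs_nonneg _)
        _ = _ := by rw [abs_mul, abs_of_pos (by norm_num : (0 : ℝ) < 3)]
    have f0 := mul_le_mul_of_nonneg_right q0 hL.le
    have f1 := mul_le_mul_of_nonneg_right q1 hL.le
    have := lin_y (K := K) (u0 := u0) (u1 := u1) (b := b + 3 * c) h.yl h.yu
      (R := -θ * L - a * L + c * d * L + (|b| + 3 * |c|) * |K|) (by nlinarith) (by nlinarith)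
    nlinarith
  have m0 := key d0 t1 t2
  have m1 := key d1 t3 t4
  have hK2 : K' ≤ θ * L := hn
  have m2 : a * L + b * Real.log y +
      max (c * (-d0 * L + 3 * Real.log y)) (c * (-d1 * L + 3 * Real.log y)) ≤
      -θ * L + (|b| + 3 * |c|) * |K| := by
    rcases max_choice (c * (-d0 * L + 3 * Real.log y)) (c * (-d1 * L + 3 * Real.log y)) with h | h
    · rw [h]; exact m0
    · rw [h]; exact m1
  have m3 : K' = Real.log (max C 1) + ((|b| + 3 * |c|) * |K| + |c| * |K|) := by
    rw [hK']; ring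
  linarith

end Vale.Agent.P146.H470
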