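import Vale.Agent.P146.H470.Bud

/-!
# The logarithmic form of the window of `y, V, s, lam, η`

All the exponents are multiples of one unit `q`; constants, powers of `log n` and the constant `A`
of the window are absorbed in `(q / 100) * log n`.

Use: `obtain ⟨..⟩ := h`, `refine le_of_log (by positivity) (by positivity) ?_`,
`simp (disch := positivity) only [Real.log_mul, Real.log_div, Real.log_inv, Real.log_rpow,
  Real.log_pow, Real.log_sqrt, Real.log_one]`, `push_cast`, `linarith`.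
-/

open Filter

namespace Vale.Agent.P146.H470

/-- The window of `y` and `V`: `L = log n`, `σ = q / 100`. -/
structure Env (a0 b₁ d q K : ℝ) (n : ℕ) (y V : ℝ) : Prop where
  n0 : (0 : ℝ) < n
  y0 : 0 < y
  V0 : 0 < V
  L1 : 1 ≤ Real.log n
  qL : 0 < q * Real.log n
  cst : K ≤ q / 100 * Real.log n
  ll : Real.log (Real.log n) ≤ q / 100 * Real.log n
  yl : (-a0 + 1000 * q) * Real.log n - q / 100 * Real.log n ≤ Real.log y
  yu : Real.log y ≤ -b₁ * Real.log n + q / 100 * Real.log n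
  Vl : -d * Real.log n + 3 * Real.log y - q / 100 * Real.log n ≤ Real.log V
  Vu : Real.log V ≤ -d * Real.log n + 3 * Real.log y + q / 100 * Real.log n

/-- **The window in logarithmic form, eventually.** -/
theorem env_ev {a0 b₁ d q A : ℝ} (K : ℝ) (hq : 0 < q) (hA : 1 ≤ A) :
    ∀ᶠ n : ℕ in atTop, ∀ y V : ℝ, (n : ℝ) ^ (-a0 + 1000 * q) ≤ A * y →
      y ≤ A * (n : ℝ) ^ (-b₁) → (n : ℝ) ^ (-d) * y ^ 3 ≤ A * V →
      V ≤ A * ((n : ℝ) ^ (-d) * y ^ 3) → Env a0 b₁ d q K n y V := by
  have hθ : 0 < q / 100 := by positivity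
  filter_upwards [ev_log hθ (max K (Real.log A)), ev_loglog hθ, ev_three] with n h1 h2 h3 y V
    g1 g2 g3 g4
  obtain ⟨h3, h4⟩ := h3
  have hn0 : (0 : ℝ) < n := by linarith
  have hA0 : 0 < A := by linarith
  have hK := (le_max_left K (Real.log A)).trans h1
  have hLA := (le_max_right K (Real.log A)).trans h1
  have hy : 0 < y := by
    have : 0 < A * y := lt_of_lt_of_le (Real.rpow_pos_of_pos hn0 _) g1
    exact (pos_iff_pos_of_mul_pos this).1 hA0
  have hV : 0 < V := by
    have : 0 < A * V := lt_of_lt_of_le (by positivity) g3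
    exact (pos_iff_pos_of_mul_pos this).1 hA0
  have k1 := Real.log_le_log (by positivity) g1
  have k2 := Real.log_le_log hy g2
  have k3 := Real.log_le_log (by positivity) g3
  have k4 := Real.log_le_log hV g4
  simp (disch := positivity) only [Real.log_mul, Real.log_rpow, Real.log_pow] at k1 k2 k3 k4
  push_cast at k3 k4
  exact ⟨hn0, hy, hV, h4, mul_pos hq (by linarith), hK, h2, by linarith, by linarith, by linarith,
    by linarith⟩

/-- The parameters of the amplitude in logarithmic form: `s ^ 2 ≤ n ^ (-k q) V`,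
`η ≤ n ^ (-j q)`, `n ^ q ≤ y lam η`, `lam ≤ n ^ (-p q) y ^ 2 (s ^ 2 n)`. -/
structure Env2 (q k j p : ℝ) (n : ℕ) (y V s lam η : ℝ) : Prop where
  s0 : 0 < s
  l0 : 0 < lam
  η0 : 0 < η
  sV : 2 * Real.log s ≤ -(k * q) * Real.log n + Real.log V
  ηu : Real.log η ≤ -(j * q) * Real.log n
  ly : q * Real.log n ≤ Real.log y + Real.log lam + Real.log η
  lu : Real.log lam ≤ -(p * q) * Real.log n + 2 * Real.log y + 2 * Real.log s + Real.log n

lemma env2_of {q k j p : ℝ} {n : ℕ} {y V s lam η : ℝ} (hn : (0 : ℝ) < n) (hy : 0 < y) (hV : 0 < V)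
    (hs : 0 < s) (h1 : s ^ 2 ≤ (n : ℝ) ^ (-(k * q)) * V) (hη : 0 < η)
    (h2 : η ≤ (n : ℝ) ^ (-(j * q))) (hl : 0 < lam) (h3 : (n : ℝ) ^ q ≤ y * (lam * η))
    (h4 : lam ≤ (n : ℝ) ^ (-(p * q)) * y ^ 2 * (s ^ 2 * n)) :
    Env2 q k j p n y V s lam η := by
  have k1 := Real.log_le_log (by positivity) h1
  have k2 := Real.log_le_log hη h2
  have k3 := Real.log_le_log (by positivity) h3
  have k4 := Real.log_le_log hl h4
  simp (disch := positivity) only [Real.log_mul, Real.log_rpow, Real.log_pow] at k1 k2 k3 k4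
  push_cast at k1 k4
  exact ⟨hs, hl, hη, by linarith, by linarith, by linarith, by linarith⟩

section

variable {a0 b₁ d q K : ℝ} {n : ℕ} {y V : ℝ}

lemma Env.one_lt (h : Env a0 b₁ d q K n y V) : (1 : ℝ) < n := by
  by_contra hc
  push Not at hc
  have := Real.log_nonpos h.n0.le hc
  linarith [h.L1]

lemma Env.n_pos (h : Env a0 b₁ d q K n y V) : 0 < n := by exact_mod_cast h.n0

/-- `y ≤ ε` for every fixed `ε`, when `log (1/ε) ≤ K` -/
lemma Env.y_le {ε : ℝ} (h : Env a0 b₁ d q K n y V) (hb : 2 * q / 100 ≤ b₁) (hε : 0 < ε)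
    (hK : -Real.log ε ≤ K) : y ≤ ε := by
  refine le_of_log h.y0 hε ?_
  have h1 := h.yu
  have h2 := h.cst
  have h3 : 2 * q / 100 * Real.log n ≤ b₁ * Real.log n :=
    mul_le_mul_of_nonneg_right hb (by linarith [h.L1])
  linarith

end

end Vale.Agent.P146.H470
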