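import Vale.Agent.P146.H470.Env
import Vale.Agent.P146.H317.Rho

/-!
# P146: the scalar inequalities of the lower bound of the relative entropy

The numbers of `H643.klow_n` as powers of `n` and `y` (unit `q`) and the inequalities between them.
-/

open Filter

namespace Vale.Agent.P146.H470

open Vale.Agent.P146.H317

/-- the step of the grid -/
noncomputable def hh (q : ℝ) (n : ℕ) : ℝ := (n : ℝ) ^ (-(7 * q))

/-- the end of the main part -/
noncomputable def T1 (q : ℝ) (n : ℕ) (y : ℝ) : ℝ := (n : ℝ) ^ (-(70 * q)) * y ^ 2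

/-- the beginning of the main part (lower side) -/
noncomputable def T2 (q : ℝ) (n : ℕ) (y : ℝ) : ℝ := (n : ℝ) ^ q * y ^ 2

/-- the weight of the coarse step -/
noncomputable def th (q : ℝ) (n : ℕ) : ℝ := (n : ℝ) ^ (-(18 * q))

/-- the number of the hidden sites -/
noncomputable def mm (q : ℝ) (n : ℕ) (y : ℝ) : ℕ := ⌈(n : ℝ) ^ (1 - 110 * q) * y ^ 2⌉₊

/-- the window of the field share -/
noncomputable def dl (q : ℝ) (n : ℕ) : ℝ := (n : ℝ) ^ (-(80 * q))

/-- the size of the root -/
noncomputable def Rn (q : ℝ) (n : ℕ) (y : ℝ) : ℝ := (n : ℝ) ^ (-(99 / 10 * q)) * y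

/-- the error of the mass -/
noncomputable def en (q b : ℝ) (n : ℕ) (y V a : ℝ) : ℝ :=
  3 * a ^ 2 + 4 * (mm q n y / n) + 4 * (y * V / b)

/-- The window of the lower bound. -/
structure LW (a0 b₁ q A b : ℝ) (n : ℕ) (y V al a : ℝ) : Prop where
  env : Env a0 b₁ (24 * q) q (10 * |Real.log b| + 10 * |Real.log A| + 10000) n y V
  q0 : 0 < q
  b0 : 0 < b
  A1 : 1 ≤ A
  a0' : a0 ≤ 1 / 6
  b1 : 100 * q < b₁
  ap : 0 < a
  la1 : (n : ℝ) ^ (-(11 * q)) * y ^ 2 ≤ A * a
  la2 : a ≤ A * ((n : ℝ) ^ (-(10 * q)) * y ^ 2)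
  aal : a ≤ al
  alu : al ≤ 4 * b * ((n : ℝ) ^ (q / 2) * y ^ 5 / V)

variable {a0 b₁ q A b : ℝ} {n : ℕ} {y V al a : ℝ}

/-- all the facts in logarithmic form -/
lemma LW.facts (h : LW a0 b₁ q A b n y V al a) :
    0 < q * Real.log n ∧ 10000 ≤ q / 100 * Real.log n ∧ Real.log b ≤ q / 1000 * Real.log n ∧
      -Real.log b ≤ q / 1000 * Real.log n ∧ 0 ≤ Real.log A ∧ Real.log A ≤ q / 1000 * Real.log n ∧
      (-(1 / 6) + 1000 * q) * Real.log n - q / 100 * Real.log n ≤ Real.log y ∧
      Real.log y ≤ -(100 * q) * Real.log n + q / 100 * Real.log n ∧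
      -(24 * q) * Real.log n + 3 * Real.log y - q / 100 * Real.log n ≤ Real.log V ∧
      Real.log V ≤ -(24 * q) * Real.log n + 3 * Real.log y + q / 100 * Real.log n ∧
      -(11 * q) * Real.log n + 2 * Real.log y - q / 1000 * Real.log n ≤ Real.log a ∧
      Real.log a ≤ -(10 * q) * Real.log n + 2 * Real.log y + q / 1000 * Real.log n := by
  have e := h.env
  have hn := e.n0
  have hy := e.y0
  have hV := e.V0
  have hL := e.L1
  have hA0 : 0 < A := by linarith [h.A1]
  have ha := h.ap
  have hb := h.b0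
  have hc := e.cst
  have k1 := abs_nonneg (Real.log b)
  have k2 := abs_nonneg (Real.log A)
  have k3 := le_abs_self (Real.log b)
  have k4 := neg_abs_le (Real.log b)
  have k5 := le_abs_self (Real.log A)
  have k6 := Real.log_nonneg h.A1
  have l1 := Real.log_le_log (by positivity) h.la1
  have l2 := Real.log_le_log ha h.la2
  simp (disch := positivity) only [Real.log_mul, Real.log_rpow, Real.log_pow] at l1 l2
  push_cast at l1 l2
  have m1 : a0 * Real.log n ≤ 1 / 6 * Real.log n :=
    mul_le_mul_of_nonneg_right h.a0' (by linarith)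
  have m2 : 100 * q * Real.log n ≤ b₁ * Real.log n :=
    mul_le_mul_of_nonneg_right h.b1.le (by linarith)
  have yl := e.yl
  have yu := e.yu
  refine ⟨e.qL, by linarith, by linarith, by linarith, k6, by linarith, by linarith, by linarith,
    e.Vl, e.Vu, by linarith, by linarith⟩

lemma log_c (c : ℝ) (hc : 0 < c) : Real.log c ≤ c := by
  linarith [Real.log_le_sub_one_of_pos hc]

lemma LW.hh_pos (h : LW a0 b₁ q A b n y V al a) : 0 < hh q n :=
  Real.rpow_pos_of_pos h.env.n0 _

lemma LW.hh_le (h : LW a0 b₁ q A b n y V al a) : hh q n ≤ 1 / 1000 := by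
  obtain ⟨f1, f2, f3, f4, f5, f6, f7, f8, f9, f10, f11, f12⟩ := h.facts
  have hn := h.env.n0
  have c1 := log_c 1000 (by norm_num)
  unfold hh
  refine le_of_log (by positivity) (by positivity) ?_
  simp (disch := positivity) only [Real.log_div, Real.log_one, Real.log_rpow]
  linarith

lemma LW.y_le (h : LW a0 b₁ q A b n y V al a) : y ≤ 1 / 1000 := by
  obtain ⟨f1, f2, f3, f4, f5, f6, f7, f8, f9, f10, f11, f12⟩ := h.facts
  have hy := h.env.y0
  have c1 := log_c 1000 (by norm_num)
  refine le_of_log (by positivity) (by positivity) ?_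
  simp (disch := positivity) only [Real.log_div, Real.log_one]
  linarith

lemma LW.by_le (h : LW a0 b₁ q A b n y V al a) : b * y ≤ 1 := by
  obtain ⟨f1, f2, f3, f4, f5, f6, f7, f8, f9, f10, f11, f12⟩ := h.facts
  have hy := h.env.y0
  have hb := h.b0
  refine le_of_log (by positivity) (by positivity) ?_
  simp (disch := positivity) only [Real.log_mul, Real.log_one]
  linarith

lemma LW.T2_le (h : LW a0 b₁ q A b n y V al a) : T2 q n y ≤ 1 / 2 := by
  obtain ⟨f1, f2, f3, f4, f5, f6, f7, f8, f9, f10, f11, f12⟩ := h.facts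
  have hn := h.env.n0
  have hy := h.env.y0
  have c1 := log_c 2 (by norm_num)
  unfold T2
  refine le_of_log (by positivity) (by positivity) ?_
  simp (disch := positivity) only [Real.log_div, Real.log_one, Real.log_mul, Real.log_rpow,
    Real.log_pow]
  push_cast
  linarith

lemma LW.T1_le (h : LW a0 b₁ q A b n y V al a) : T1 q n y ≤ T2 q n y := by
  obtain ⟨f1, f2, f3, f4, f5, f6, f7, f8, f9, f10, f11, f12⟩ := h.facts
  have hn := h.env.n0
  have hy := h.env.y0
  unfold T2 T1
  refine le_of_log (by positivity) (by positivity) ?_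
  simp (disch := positivity) only [Real.log_mul, Real.log_rpow, Real.log_pow]
  push_cast
  linarith

lemma LW.T1_pos (h : LW a0 b₁ q A b n y V al a) : 0 < T1 q n y := by
  have hn := h.env.n0
  have hy := h.env.y0
  unfold T1
  positivity

lemma LW.T2_pos (h : LW a0 b₁ q A b n y V al a) : 0 < T2 q n y := by
  have hn := h.env.n0
  have hy := h.env.y0
  unfold T2
  positivity

lemma LW.a_T2 (h : LW a0 b₁ q A b n y V al a) : 4 * a ≤ T2 q n y := by
  obtain ⟨f1, f2, f3, f4, f5, f6, f7, f8, f9, f10, f11, f12⟩ := h.facts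
  have hn := h.env.n0
  have hy := h.env.y0
  have ha := h.ap
  have c1 := log_c 4 (by norm_num)
  unfold T2
  refine le_of_log (by positivity) (by positivity) ?_
  simp (disch := positivity) only [Real.log_mul, Real.log_rpow, Real.log_pow]
  push_cast
  linarith

/-- the size of the root -/
lemma LW.rho_le (h : LW a0 b₁ q A b n y V al a) :
    rho (b * y) (2 * a) (V / b ^ 2) 0 ≤ Rn q n y := by
  obtain ⟨f1, f2, f3, f4, f5, f6, f7, f8, f9, f10, f11, f12⟩ := h.facts
  have hn := h.env.n0
  have hy := h.env.y0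
  have hV := h.env.V0
  have ha := h.ap
  have hb := h.b0
  have c1 := log_c 4 (by norm_num)
  have c2 := log_c 2 (by norm_num)
  refine (rho_le_size (by positivity) (by positivity)).trans ?_
  rw [max_eq_left (by linarith), sub_zero]
  have k1 : 2 * a / (b * y) ≤ Rn q n y / 2 := by
    unfold Rn
    refine le_of_log (by positivity) (by positivity) ?_
    simp (disch := positivity) only [Real.log_mul, Real.log_rpow, Real.log_div]
    linarith
  have k2 : √(V / b ^ 2 / (b * y)) ≤ Rn q n y / 2 := by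
    unfold Rn
    refine le_of_log (by positivity) (by positivity) ?_
    simp (disch := positivity) only [Real.log_mul, Real.log_rpow, Real.log_div, Real.log_sqrt,
      Real.log_pow]
    push_cast
    linarith
  linarith

/-- the number of the hidden sites -/
lemma LW.mm_le (h : LW a0 b₁ q A b n y V al a) :
    (mm q n y : ℝ) ≤ 2 * ((n : ℝ) ^ (1 - 110 * q) * y ^ 2) := by
  obtain ⟨f1, f2, f3, f4, f5, f6, f7, f8, f9, f10, f11, f12⟩ := h.facts
  have hn := h.env.n0
  have hy := h.env.y0
  have hL := h.env.L1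
  have k1 : 1 ≤ (n : ℝ) ^ (1 - 110 * q) * y ^ 2 := by
    refine le_of_log (by positivity) (by positivity) ?_
    simp (disch := positivity) only [Real.log_mul, Real.log_rpow, Real.log_pow, Real.log_one]
    push_cast
    linarith
  have k2 := (Nat.ceil_lt_add_one (show 0 ≤ (n : ℝ) ^ (1 - 110 * q) * y ^ 2 by positivity)).le
  unfold mm
  linarith

lemma LW.le_mm (h : LW a0 b₁ q A b n y V al a) :
    (n : ℝ) ^ (1 - 110 * q) * y ^ 2 ≤ mm q n y := by
  unfold mm
  exact Nat.le_ceil _

lemma LW.mm_one (h : LW a0 b₁ q A b n y V al a) : 1 ≤ mm q n y := by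
  have hn := h.env.n0
  have hy := h.env.y0
  have h1 : 0 < (n : ℝ) ^ (1 - 110 * q) * y ^ 2 := by positivity
  have h2 := h1.trans_le h.le_mm
  exact_mod_cast h2

lemma LW.mm_n (h : LW a0 b₁ q A b n y V al a) :
    (mm q n y : ℝ) / n ≤ (n : ℝ) ^ (-(109 * q)) * y ^ 2 := by
  obtain ⟨f1, f2, f3, f4, f5, f6, f7, f8, f9, f10, f11, f12⟩ := h.facts
  have hn := h.env.n0
  have hy := h.env.y0
  have c2 := log_c 2 (by norm_num)
  rw [div_le_iff₀ hn]
  refine h.mm_le.trans ?_
  refine le_of_log (by positivity) (by positivity) ?_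
  simp (disch := positivity) only [Real.log_mul, Real.log_rpow, Real.log_pow]
  push_cast
  linarith

lemma LW.mm_small (h : LW a0 b₁ q A b n y V al a) : (mm q n y : ℝ) / n ≤ 1 / 1000 := by
  obtain ⟨f1, f2, f3, f4, f5, f6, f7, f8, f9, f10, f11, f12⟩ := h.facts
  have hn := h.env.n0
  have hy := h.env.y0
  have c1 := log_c 1000 (by norm_num)
  refine h.mm_n.trans ?_
  refine le_of_log (by positivity) (by positivity) ?_
  simp (disch := positivity) only [Real.log_div, Real.log_one, Real.log_mul, Real.log_rpow,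
    Real.log_pow]
  push_cast
  linarith

lemma LW.mm_lt (h : LW a0 b₁ q A b n y V al a) : 2 * mm q n y < n := by
  have h1 := h.mm_small
  have hn := h.env.n0
  rw [div_le_iff₀ hn] at h1
  have : (2 * mm q n y : ℝ) < n := by linarith
  exact_mod_cast this

/-- the slope is small -/
lemma LW.al_le (h : LW a0 b₁ q A b n y V al a) : al ≤ hh q n / 2 := by
  obtain ⟨f1, f2, f3, f4, f5, f6, f7, f8, f9, f10, f11, f12⟩ := h.facts
  have hn := h.env.n0
  have hy := h.env.y0
  have hV := h.env.V0
  have hb := h.b0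
  have c1 := log_c 4 (by norm_num)
  have c2 := log_c 2 (by norm_num)
  refine h.alu.trans ?_
  unfold hh
  refine le_of_log (by positivity) (by positivity) ?_
  simp (disch := positivity) only [Real.log_div, Real.log_mul, Real.log_rpow, Real.log_pow]
  push_cast
  linarith

lemma LW.al_log (h : LW a0 b₁ q A b n y V al a) : al ≤ (n : ℝ) ^ (25 * q) * y ^ 2 := by
  obtain ⟨f1, f2, f3, f4, f5, f6, f7, f8, f9, f10, f11, f12⟩ := h.facts
  have hn := h.env.n0
  have hy := h.env.y0
  have hV := h.env.V0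
  have hb := h.b0
  have c1 := log_c 4 (by norm_num)
  refine h.alu.trans ?_
  refine le_of_log (by positivity) (by positivity) ?_
  simp (disch := positivity) only [Real.log_div, Real.log_mul, Real.log_rpow, Real.log_pow]
  push_cast
  linarith

lemma LW.al_pos (h : LW a0 b₁ q A b n y V al a) : 0 < al := h.ap.trans_le h.aal

lemma LW.al_le_one (h : LW a0 b₁ q A b n y V al a) : al ≤ 1 := by
  have h1 := h.al_le
  have h2 := h.hh_le
  linarith

lemma LW.dl_pos (h : LW a0 b₁ q A b n y V al a) : 0 < dl q n :=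
  Real.rpow_pos_of_pos h.env.n0 _

lemma LW.dl_le (h : LW a0 b₁ q A b n y V al a) : 10 * dl q n ≤ hh q n := by
  obtain ⟨f1, f2, f3, f4, f5, f6, f7, f8, f9, f10, f11, f12⟩ := h.facts
  have hn := h.env.n0
  have c1 := log_c 10 (by norm_num)
  unfold hh dl
  refine le_of_log (by positivity) (by positivity) ?_
  simp (disch := positivity) only [Real.log_mul, Real.log_rpow]
  linarith

lemma LW.th_pos (h : LW a0 b₁ q A b n y V al a) : 0 < th q n :=
  Real.rpow_pos_of_pos h.env.n0 _

lemma LW.th_le (h : LW a0 b₁ q A b n y V al a) : th q n ≤ 1 := by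
  obtain ⟨f1, f2, f3, f4, f5, f6, f7, f8, f9, f10, f11, f12⟩ := h.facts
  have hn := h.env.n0
  unfold th
  refine le_of_log (by positivity) (by positivity) ?_
  simp (disch := positivity) only [Real.log_one, Real.log_rpow]
  linarith

/-- the quotient `V / b` against the step of the grid -/
lemma LW.yV (h : LW a0 b₁ q A b n y V al a) : y * V / b ≤ hh q n / 8 := by
  obtain ⟨f1, f2, f3, f4, f5, f6, f7, f8, f9, f10, f11, f12⟩ := h.facts
  have hn := h.env.n0
  have hy := h.env.y0
  have hV := h.env.V0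
  have hb := h.b0
  have c1 := log_c 8 (by norm_num)
  unfold hh
  refine le_of_log (by positivity) (by positivity) ?_
  simp (disch := positivity) only [Real.log_mul, Real.log_rpow, Real.log_div]
  linarith

/-- **the mass** -/
lemma LW.mass (h : LW a0 b₁ q A b n y V al a) {vp u : ℝ} (hvp0 : 0 ≤ vp) (hvp : vp ≤ V)
    (hu0 : 0 ≤ u) (hu : u ≤ 1) :
    (n : ℝ) / (n - 2 * mm q n y) / (1 + al) ^ 2 + 2 * (b * y * (1 + al) * (u * vp / b ^ 2)) ≤
      1 - (1 - hh q n) * (2 * a) + en q b n y V a := by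
  have hn := h.env.n0
  have hy := h.env.y0
  have hV := h.env.V0
  have hb := h.b0
  have ha := h.ap
  have hal := h.al_pos
  have haal := h.aal
  have hal1 := h.al_le_one
  have hms := h.mm_small
  have hhp := h.hh_pos
  obtain ⟨m, hm⟩ : ∃ m : ℝ, m = (mm q n y : ℝ) / n := ⟨_, rfl⟩
  have hm0 : 0 ≤ m := by
    rw [hm]
    positivity
  rw [← hm] at hms
  have hmm : (mm q n y : ℝ) = m * n := by
    rw [hm]
    field_simp
  have e1 : (n : ℝ) / (n - 2 * mm q n y) = 1 / (1 - 2 * m) := by
    rw [hmm]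
    have : (1 - 2 * m) ≠ 0 := by
      have : 0 < 1 - 2 * m := by linarith
      exact this.ne'
    field_simp
  have k1 : 1 / (1 - 2 * m) ≤ 1 + 4 * m := by
    rw [div_le_iff₀ (by linarith)]
    nlinarith
  have k2 : 1 / (1 + al) ^ 2 ≤ 1 - 2 * a + 3 * a ^ 2 := by
    have k3 : 1 / (1 + al) ^ 2 ≤ 1 / (1 + a) ^ 2 := by
      refine one_div_le_one_div_of_le (by positivity) ?_
      refine pow_le_pow_left₀ (by linarith) (by linarith) 2
    refine k3.trans ?_
    rw [div_le_iff₀ (by positivity)]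
    nlinarith [pow_pos ha 3, pow_pos ha 4, pow_pos ha 2]
  have k4 : (n : ℝ) / (n - 2 * mm q n y) / (1 + al) ^ 2 ≤ 1 - 2 * a + 3 * a ^ 2 + 4 * m := by
    rw [e1, div_eq_mul_one_div (1 / (1 - 2 * m))]
    have k5 : 0 ≤ 1 / (1 + al) ^ 2 := by positivity
    have k6 : 1 / (1 + al) ^ 2 ≤ 1 := by
      rw [div_le_one (by positivity)]
      nlinarith
    calc 1 / (1 - 2 * m) * (1 / (1 + al) ^ 2) ≤ (1 + 4 * m) * (1 / (1 + al) ^ 2) :=
          mul_le_mul_of_nonneg_right k1 k5
      _ ≤ _ := by nlinarith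
  have k7 : b * y * (1 + al) * (u * vp / b ^ 2) ≤ 2 * (y * V / b) := by
    have k8 : u * vp ≤ 1 * V := mul_le_mul hu hvp hvp0 zero_le_one
    have k9 : (1 + al) * (u * vp) ≤ 2 * V := by
      have : 0 ≤ u * vp := mul_nonneg hu0 hvp0
      nlinarith
    have e2 : b * y * (1 + al) * (u * vp / b ^ 2) = y / b * ((1 + al) * (u * vp)) := by
      field_simp
    have e3 : 2 * (y * V / b) = y / b * (2 * V) := by ring
    rw [e2, e3]
    exact mul_le_mul_of_nonneg_left k9 (by positivity)
  unfold en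
  rw [← hm]
  have k10 : 0 ≤ hh q n * a := by positivity
  nlinarith

/-- the mean square of the field against the step -/
lemma LW.wf_le (h : LW a0 b₁ q A b n y V al a) {vp u : ℝ} (hvp0 : 0 ≤ vp) (hvp : vp ≤ V)
    (hu0 : 0 ≤ u) (hu : u ≤ 1) :
    b * y * (1 + al) * (u * vp / b ^ 2) ≤ hh q n / 2 := by
  have hn := h.env.n0
  have hy := h.env.y0
  have hV := h.env.V0
  have hb := h.b0
  have hal := h.al_pos
  have hal1 := h.al_le_one
  have hyV := h.yV
  have hhp := h.hh_pos
  have k8 : u * vp ≤ 1 * V := mul_le_mul hu hvp hvp0 zero_le_one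
  have k9 : (1 + al) * (u * vp) ≤ 2 * V := by
    have : 0 ≤ u * vp := mul_nonneg hu0 hvp0
    nlinarith
  have e2 : b * y * (1 + al) * (u * vp / b ^ 2) = y / b * ((1 + al) * (u * vp)) := by
    field_simp
  have e3 : 2 * (y * V / b) = y / b * (2 * V) := by ring
  have k10 := mul_le_mul_of_nonneg_left k9 (show 0 ≤ y / b by positivity)
  rw [e2]
  linarith

/-- the field against its final share -/
lemma LW.ww (h : LW a0 b₁ q A b n y V al a) {s : ℝ} (hs : s ^ 2 ≤ dl q n * V) :
    (1 - hh q n) * (V / b ^ 2) ≤ (1 - hh q n / 2) * ((1 - 2 * dl q n) * (V - s ^ 2) / b ^ 2) := by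
  have hb := h.b0
  have hV := h.env.V0
  have hdl := h.dl_pos
  have hd := h.dl_le
  have hhp := h.hh_pos
  have hh1 := h.hh_le
  rw [← mul_div_assoc, ← mul_div_assoc]
  refine div_le_div_of_nonneg_right ?_ (by positivity)
  have k1 : (1 - dl q n) * V ≤ V - s ^ 2 := by linarith
  have k2 : (1 - hh q n) * V ≤ (1 - hh q n / 2) * ((1 - 2 * dl q n) * ((1 - dl q n) * V)) := by
    have k3 : 1 - hh q n ≤ (1 - hh q n / 2) * ((1 - 2 * dl q n) * (1 - dl q n)) := by
      nlinarith [mul_pos hdl hdl, mul_pos hdl hhp]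
    calc (1 - hh q n) * V ≤ (1 - hh q n / 2) * ((1 - 2 * dl q n) * (1 - dl q n)) * V :=
          mul_le_mul_of_nonneg_right k3 hV.le
      _ = _ := by ring
  refine k2.trans ?_
  refine mul_le_mul_of_nonneg_left ?_ (by linarith)
  exact mul_le_mul_of_nonneg_left k1 (by linarith)

/-- the error of the mass is small -/
lemma LW.en_le (h : LW a0 b₁ q A b n y V al a) :
    en q b n y V a ≤ (n : ℝ) ^ (-(19 * q)) * y ^ 2 := by
  obtain ⟨f1, f2, f3, f4, f5, f6, f7, f8, f9, f10, f11, f12⟩ := h.facts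
  have hn := h.env.n0
  have hy := h.env.y0
  have hV := h.env.V0
  have hb := h.b0
  have ha := h.ap
  have hm := h.mm_n
  have c1 := log_c 3 (by norm_num)
  have c2 := log_c 4 (by norm_num)
  have k1 : 3 * a ^ 2 ≤ (n : ℝ) ^ (-(19 * q)) * y ^ 2 / 3 := by
    refine le_of_log (by positivity) (by positivity) ?_
    simp (disch := positivity) only [Real.log_mul, Real.log_rpow, Real.log_div, Real.log_pow]
    push_cast
    linarith
  have k2 : 4 * ((n : ℝ) ^ (-(109 * q)) * y ^ 2) ≤ (n : ℝ) ^ (-(19 * q)) * y ^ 2 / 3 := by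
    refine le_of_log (by positivity) (by positivity) ?_
    simp (disch := positivity) only [Real.log_mul, Real.log_rpow, Real.log_div, Real.log_pow]
    push_cast
    linarith
  have k3 : 4 * (y * V / b) ≤ (n : ℝ) ^ (-(19 * q)) * y ^ 2 / 3 := by
    refine le_of_log (by positivity) (by positivity) ?_
    simp (disch := positivity) only [Real.log_mul, Real.log_rpow, Real.log_div, Real.log_pow]
    push_cast
    linarith
  unfold en
  linarith

lemma LW.en_nonneg (h : LW a0 b₁ q A b n y V al a) : 0 ≤ en q b n y V a := by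
  have hn := h.env.n0
  have hy := h.env.y0
  have hV := h.env.V0
  have hb := h.b0
  unfold en
  positivity

/-- **the total error** -/
lemma LW.total (h : LW a0 b₁ q A b n y V al a) {g : ℝ} (hg0 : 0 ≤ g) (hg : g ≤ T1 q n y) :
    5 * hh q n * (V / b ^ 2 * Rn q n y + b * y * Rn q n y ^ 3) +
      2 * (hh q n * (2 * a) + en q b n y V a) * Rn q n y ^ 2 + 2 * g * Rn q n y ^ 2 +
      2 * (V / b ^ 2) ^ 2 / (T2 q n y - 2 * a) +
      T2 q n y * (4 * (th q n * Rn q n y ^ 2) + 2 * ((n : ℝ) ^ (-(39 * q)) * y ^ 2)) ≤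
      (n : ℝ) ^ (-(36 * q)) * y ^ 4 := by
  obtain ⟨f1, f2, f3, f4, f5, f6, f7, f8, f9, f10, f11, f12⟩ := h.facts
  have hn := h.env.n0
  have hy := h.env.y0
  have hV := h.env.V0
  have hb := h.b0
  have ha := h.ap
  have hR0 : 0 < Rn q n y := by
    unfold Rn
    positivity
  have hh0 := h.hh_pos
  have hT := h.T2_pos
  have c1 := log_c 20 (by norm_num)
  have c2 := log_c 2 (by norm_num)
  have c3 := log_c 4 (by norm_num)
  have c4 := log_c 5 (by norm_num)
  have k1 : 5 * hh q n * (V / b ^ 2 * Rn q n y) ≤ (n : ℝ) ^ (-(36 * q)) * y ^ 4 / 20 := by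
    unfold hh Rn
    refine le_of_log (by positivity) (by positivity) ?_
    simp (disch := positivity) only [Real.log_mul, Real.log_rpow, Real.log_div, Real.log_pow]
    push_cast
    linarith
  have k2 : 5 * hh q n * (b * y * Rn q n y ^ 3) ≤ (n : ℝ) ^ (-(36 * q)) * y ^ 4 / 20 := by
    unfold hh Rn
    refine le_of_log (by positivity) (by positivity) ?_
    simp (disch := positivity) only [Real.log_mul, Real.log_rpow, Real.log_div, Real.log_pow]
    push_cast
    linarith
  have k3 : 2 * (hh q n * (2 * a)) * Rn q n y ^ 2 ≤ (n : ℝ) ^ (-(36 * q)) * y ^ 4 / 20 := by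
    unfold hh Rn
    refine le_of_log (by positivity) (by positivity) ?_
    simp (disch := positivity) only [Real.log_mul, Real.log_rpow, Real.log_div, Real.log_pow]
    push_cast
    linarith
  have k4 : 2 * en q b n y V a * Rn q n y ^ 2 ≤ (n : ℝ) ^ (-(36 * q)) * y ^ 4 / 20 := by
    have k5 : 2 * en q b n y V a * Rn q n y ^ 2 ≤
        2 * ((n : ℝ) ^ (-(19 * q)) * y ^ 2) * Rn q n y ^ 2 := by
      have := h.en_le
      gcongr
    refine k5.trans ?_
    unfold Rn
    refine le_of_log (by positivity) (by positivity) ?_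
    simp (disch := positivity) only [Real.log_mul, Real.log_rpow, Real.log_div, Real.log_pow]
    push_cast
    linarith
  have k6 : 2 * g * Rn q n y ^ 2 ≤ (n : ℝ) ^ (-(36 * q)) * y ^ 4 / 20 := by
    have k7 : 2 * g * Rn q n y ^ 2 ≤ 2 * T1 q n y * Rn q n y ^ 2 := by gcongr
    refine k7.trans ?_
    unfold Rn T1
    refine le_of_log (by positivity) (by positivity) ?_
    simp (disch := positivity) only [Real.log_mul, Real.log_rpow, Real.log_div, Real.log_pow]
    push_cast
    linarith
  have k8 : 2 * (V / b ^ 2) ^ 2 / (T2 q n y - 2 * a) ≤ (n : ℝ) ^ (-(36 * q)) * y ^ 4 / 20 := by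
    have k9 : T2 q n y / 2 ≤ T2 q n y - 2 * a := by linarith [h.a_T2]
    have k10 : 2 * (V / b ^ 2) ^ 2 / (T2 q n y - 2 * a) ≤
        2 * (V / b ^ 2) ^ 2 / (T2 q n y / 2) :=
      div_le_div_of_nonneg_left (by positivity) (by positivity) k9
    refine k10.trans ?_
    unfold T2
    refine le_of_log (by positivity) (by positivity) ?_
    simp (disch := positivity) only [Real.log_mul, Real.log_rpow, Real.log_div, Real.log_pow]
    push_cast
    linarith
  have k11 : T2 q n y * (4 * (th q n * Rn q n y ^ 2)) ≤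
      (n : ℝ) ^ (-(36 * q)) * y ^ 4 / 20 := by
    unfold T2 th Rn
    refine le_of_log (by positivity) (by positivity) ?_
    simp (disch := positivity) only [Real.log_mul, Real.log_rpow, Real.log_div, Real.log_pow]
    push_cast
    linarith
  have k12 : T2 q n y * (2 * ((n : ℝ) ^ (-(39 * q)) * y ^ 2)) ≤
      (n : ℝ) ^ (-(36 * q)) * y ^ 4 / 20 := by
    unfold T2
    refine le_of_log (by positivity) (by positivity) ?_
    simp (disch := positivity) only [Real.log_mul, Real.log_rpow, Real.log_div, Real.log_pow]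
    push_cast
    linarith
  have k13 : 0 ≤ (n : ℝ) ^ (-(36 * q)) * y ^ 4 := by positivity
  linarith

end Vale.Agent.P146.H470
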