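import Vale.Agent.P146.H470.LowA0
import Vale.Agent.P146.H643.KLow
import Vale.Agent.P146.H418.Par

/-!
# P146: the lower bound of the relative entropy on the window, up to the size of the row equation

* `lw_ev`: `KW` and the window of `a` give `LW`;
* `RowLow`: the size of the row equation at the typical points;
* `klow_kw`: `RowLow` implies the lower bound.
-/

open MeasureTheory ProbabilityTheory Filter Set

namespace Vale.Agent.P146.H470

open Vale.Agent.P146.H418 Vale.Agent.P146.H643 Vale.Agent.P146.H317 Vale.Agent.P146.H529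

/-- the parameter of the slope: `b (1 - (1 - y) rz) = 1 + al` -/
noncomputable def rz (b y al : ℝ) : ℝ := (1 - (1 + al) / b) / (1 - y)

lemma rz_eq {b y al : ℝ} (hy : y < 1) : 1 - (1 - y) * rz b y al = (1 + al) / b := by
  unfold rz
  have : 1 - y ≠ 0 := by
    have : 0 < 1 - y := by linarith
    exact this.ne'
  field_simp
  ring

lemma b_rz {b y al : ℝ} (hb : 0 < b) (hy : y < 1) : b * (1 - (1 - y) * rz b y al) = 1 + al := by
  rw [rz_eq hy]
  field_simp

theorem lw_ev {a0 b₁ q A b : ℝ} (hq : 0 < q) (hb : 0 < b) (hA : 1 ≤ A) (ha0 : a0 ≤ 1 / 6)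
    (hb₁ : 100 * q < b₁) :
    ∀ᶠ n : ℕ in atTop, ∀ y V al s lam η a : ℝ, KW a0 b₁ q A b n y V al s lam η →
      (n : ℝ) ^ (-(11 * q)) * y ^ 2 ≤ A * a → a ≤ A * ((n : ℝ) ^ (-(10 * q)) * y ^ 2) → a ≤ al →
      LW a0 b₁ q A b n y V al a := by
  filter_upwards [env_ev (a0 := a0) (b₁ := b₁) (d := 24 * q)
    (10 * |Real.log b| + 10 * |Real.log A| + 10000) hq hA] with n hn
  intro y V al s lam η a h h1 h2 h3
  have e := hn y V h.yl h.yu h.Vl h.Vu
  have hA0 : 0 < A := by linarith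
  have hn1 : 1 ≤ n := h.n1.le
  have hn0 := e.n0
  have hy := e.y0
  have ha : 0 < a := by
    have : 0 < A * a := lt_of_lt_of_le (by positivity) h1
    exact (pos_iff_pos_of_mul_pos this).1 hA0
  have h4 := h.sg.abs_le hn1 hb h.y0.le h.ap h.V0
  exact ⟨e, hq, hb, hA, ha0, hb₁, ha, h1, h2, h3, (le_abs_self _).trans h4⟩

/-- the facts about the parameters of the amplitude -/
lemma kw_adm {a0 b₁ q A b : ℝ} {n : ℕ} {y V al s lam η a : ℝ}
    (h : KW a0 b₁ q A b n y V al s lam η) (w : LW a0 b₁ q A b n y V al a) :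
    H320.Adm (lawOf n b y V al s lam η) ∧ η ≤ 1 / 1000 ∧ 0 < V - s ^ 2 ∧
      s ^ 2 ≤ dl q n * V ∧ y < 1 := by
  obtain ⟨f1, f2, f3, f4, f5, f6, f7, f8, f9, f10, f11, f12⟩ := w.facts
  have hn := w.env.n0
  have hV := w.env.V0
  have hd := w.dl_pos
  have hd1 := w.dl_le
  have hh1 := w.hh_le
  have hy := w.y_le
  have hs2 : s ^ 2 ≤ dl q n * V := h.s2
  have hvp : 0 < V - s ^ 2 := by nlinarith
  have hη : η ≤ 1 / 1000 := by
    refine h.η1.trans ?_
    have c1 := log_c 1000 (by norm_num)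
    refine le_of_log (by positivity) (by positivity) ?_
    simp (disch := positivity) only [Real.log_div, Real.log_one, Real.log_rpow]
    linarith
  exact ⟨⟨w.env.n_pos, w.b0, hvp, h.l0, h.η0.le, h.y0.le, by
    show y ≤ 1
    linarith⟩, hη, hvp, hs2, by linarith⟩

/-- **The size of the row equation at the typical points** (the remaining hypothesis). -/
def RowLow (a0 b₁ q A b : ℝ) : Prop :=
  ∀ᶠ n : ℕ in atTop, ∀ y V al s lam η a : ℝ, KW a0 b₁ q A b n y V al s lam η →
    LW a0 b₁ q A b n y V al a →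
    ∀ T, T1 q n y / 2 ≤ T → T ≤ T2 q n y → ∀ u ∈ Icc (1 - 2 * dl q n) (1 - dl q n),
    ∀ m ∈ Finset.Icc (mm q n y) (2 * mm q n y), ∀ i0 : Fin n, i0.1 + m = n →
    TypL (lawOf n b y V al s lam η) (1 - 2 * dl q n) (1 - dl q n) (mm q n y) (2 * mm q n y) T u m →
    XE (lawOf n b y V al s lam η) (rz b y al)
        (PL (lawOf n b y V al s lam η) ((1 - hh q n) * (2 * a) - en q b n y V a) (hh q n / 2) u T)
        (LrL (lawOf n b y V al s lam η) ((1 - hh q n) * (2 * a) - en q b n y V a) (hh q n / 2)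
          u T) m (1 - T) u i0 ≤ (n : ℝ) ^ (-(39 * q)) * y ^ 2 ∧
      CC (lawOf n b y V al s lam η) (Sn n m) (1 - T) u ≤ (n : ℝ) ^ (100 * q) * y ^ 2 ∧
      (lawOf n b y V al s lam η).rk (Sn n m) (1 - T) u ≤ (n : ℝ) ^ (-(100 * q)) * y ^ 2

/-- the rest of the coarse step -/
lemma LW.rest {a0 b₁ q A b : ℝ} {n : ℕ} {y V al a η : ℝ} (h : LW a0 b₁ q A b n y V al a)
    (hη : 0 < η) (hη1 : η ≤ (n : ℝ) ^ (-(2000 * q))) (hη2 : η ≤ 1) :
    1 / th q n * (η * (2 + η)) ^ 2 * ((n : ℝ) ^ (100 * q) * y ^ 2) +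
      1 / th q n * ((n : ℝ) ^ (-(100 * q)) * y ^ 2) + 1 / n ≤ (n : ℝ) ^ (-(39 * q)) * y ^ 2 := by
  obtain ⟨f1, f2, f3, f4, f5, f6, f7, f8, f9, f10, f11, f12⟩ := h.facts
  have hn := h.env.n0
  have hy := h.env.y0
  have c1 := log_c 9 (by norm_num)
  have c2 := log_c 3 (by norm_num)
  have hth := h.th_pos
  have hηl : Real.log η ≤ -(2000 * q) * Real.log n := by
    have := Real.log_le_log hη hη1
    rwa [Real.log_rpow hn] at this
  have hL := h.env.L1
  have k0 : (η * (2 + η)) ^ 2 ≤ 9 * η ^ 2 := by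
    have : η * (2 + η) ≤ 3 * η := by nlinarith
    calc (η * (2 + η)) ^ 2 ≤ (3 * η) ^ 2 := pow_le_pow_left₀ (by positivity) this 2
      _ = 9 * η ^ 2 := by ring
  have k1 : 1 / th q n * (η * (2 + η)) ^ 2 * ((n : ℝ) ^ (100 * q) * y ^ 2) ≤
      (n : ℝ) ^ (-(39 * q)) * y ^ 2 / 3 := by
    have k2 : 1 / th q n * (η * (2 + η)) ^ 2 * ((n : ℝ) ^ (100 * q) * y ^ 2) ≤
        1 / th q n * (9 * η ^ 2) * ((n : ℝ) ^ (100 * q) * y ^ 2) := by gcongr
    refine k2.trans ?_
    unfold th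
    refine le_of_log (by positivity) (by positivity) ?_
    simp (disch := positivity) only [Real.log_mul, Real.log_rpow, Real.log_div, Real.log_pow,
      Real.log_one]
    push_cast
    linarith
  have k3 : 1 / th q n * ((n : ℝ) ^ (-(100 * q)) * y ^ 2) ≤
      (n : ℝ) ^ (-(39 * q)) * y ^ 2 / 3 := by
    unfold th
    refine le_of_log (by positivity) (by positivity) ?_
    simp (disch := positivity) only [Real.log_mul, Real.log_rpow, Real.log_div, Real.log_pow,
      Real.log_one]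
    push_cast
    linarith
  have k4 : 1 / (n : ℝ) ≤ (n : ℝ) ^ (-(39 * q)) * y ^ 2 / 3 := by
    refine le_of_log (by positivity) (by positivity) ?_
    simp (disch := positivity) only [Real.log_mul, Real.log_rpow, Real.log_div, Real.log_pow,
      Real.log_one]
    push_cast
    linarith
  linarith

/-- **The lower bound of the relative entropy, from the size of the row equation.** -/
theorem klow_kw {a0 b₁ q A b : ℝ} (hrow : RowLow a0 b₁ q A b) :
    ∀ᶠ n : ℕ in atTop, ∀ y V al s lam η a : ℝ, KW a0 b₁ q A b n y V al s lam η →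
      LW a0 b₁ q A b n y V al a →
      n * y ^ 2 * b ^ 2 / 4 * (J (b * y) (2 * a) (V / b ^ 2) - (n : ℝ) ^ (-(36 * q)) * y ^ 4) ≤
        (lawOf n b y V al s lam η).KA := by
  filter_upwards [hrow] with n hrow
  intro y V al s lam η a h w
  obtain ⟨hA, hη, hvp, hs2, hy1⟩ := kw_adm h w
  have hn := w.env.n0
  have hy := w.env.y0
  have hV := w.env.V0
  have hb := w.b0
  have ha := w.ap
  have hhp := w.hh_pos
  have hh1 := w.hh_le
  have hdp := w.dl_pos
  have hd1 := w.dl_le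
  have hT2 := w.T2_le
  have hT1p := w.T1_pos
  have hT12 := w.T1_le
  have haT := w.a_T2
  have hal := w.al_pos
  have hal1 := w.al_le
  obtain ⟨N, hN1, hN2⟩ := exists_level hhp hT1p (show T1 q n y ≤ 1 by linarith)
  have hT1N : T1 q n y / 2 ≤ gg (hh q n) N := by
    have := gg_pos hhp.le N
    nlinarith
  have hE : 0 ≤ (n : ℝ) ^ (-(39 * q)) * y ^ 2 := by positivity
  have hR0 : 0 ≤ Rn q n y := by
    unfold Rn
    positivity
  have hthp := w.th_pos
  have hvV : V - s ^ 2 ≤ V := by linarith [sq_nonneg s]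
  have key := klow_n (L := lawOf n b y V al s lam η) hA (show η ≤ 1 / 2 by linarith)
    (show s ≠ 0 from h.s0.ne') hy hy1 (r0 := rz b y al) (by
      show cc n b s al = s ^ 2 * n * (1 - (1 - y) * rz b y al)
      rw [rz_eq hy1]
      unfold cc
      ring) (by
      show 0 < b * (1 - (1 - y) * rz b y al)
      rw [b_rz hb hy1]
      linarith)
    (m1 := mm q n y) (m2 := 2 * mm q n y) (N := N) w.mm_one (by omega) w.mm_lt
    (u0 := 1 - 2 * dl q n) (u1 := 1 - dl q n) (by linarith) (by linarith) (by linarith)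
    (h := hh q n) (a := 2 * a) (w := V / b ^ 2) (e := en q b n y V a) (e' := hh q n / 2)
    (θ := th q n) (T₂ := T2 q n y) (R := Rn q n y) (E0 := (n : ℝ) ^ (-(39 * q)) * y ^ 2)
    (E1 := 4 * (th q n * Rn q n y ^ 2) + 2 * ((n : ℝ) ^ (-(39 * q)) * y ^ 2))
    (by linarith) (by positivity) hhp.le (by linarith) w.en_nonneg (hN1.trans hT12)
    (by nlinarith) (by linarith) w.rho_le (by linarith) (by linarith) (by
      show b * (1 - (1 - y) * rz b y al) ≤ _
      rw [b_rz hb hy1]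
      linarith) (by
      show (n : ℝ) / (n - ((2 * mm q n y : ℕ) : ℝ)) / (b * (1 - (1 - y) * rz b y al)) ^ 2 +
        2 * (b * y * (b * (1 - (1 - y) * rz b y al)) * ((1 - dl q n) * (V - s ^ 2) / b ^ 2)) ≤ _
      rw [b_rz hb hy1]
      have := w.mass (vp := V - s ^ 2) (u := 1 - dl q n) hvp.le hvV (by linarith) (by linarith)
      push_cast
      exact this) (by
      show b * y * (b * (1 - (1 - y) * rz b y al)) * ((1 - dl q n) * (V - s ^ 2) / b ^ 2) ≤ _
      rw [b_rz hb hy1]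
      exact w.wf_le (vp := V - s ^ 2) (u := 1 - dl q n) hvp.le hvV (by linarith) (by linarith))
    (by
      show (1 - hh q n) * (V / b ^ 2) ≤ (1 - hh q n / 2) * ((1 - 2 * dl q n) * (V - s ^ 2) / b ^ 2)
      exact w.ww hs2)
    hthp w.th_le hE (by positivity) (by
      intro T hT u hu m hm i0 hi0 hty
      obtain ⟨x1, x2, x3⟩ := hrow y V al s lam η a h w T (hT1N.trans hT.1) hT.2 u hu m hm i0 hi0
        hty
      refine ⟨x1, ?_⟩
      have hr := w.rest h.η0 h.η1 (by linarith)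
      have y1 : 1 / th q n * (η * (2 + η)) ^ 2 *
          CC (lawOf n b y V al s lam η) (Sn n m) (1 - T) u ≤
          1 / th q n * (η * (2 + η)) ^ 2 * ((n : ℝ) ^ (100 * q) * y ^ 2) :=
        mul_le_mul_of_nonneg_left x2 (by positivity)
      have y2 : 1 / th q n * (lawOf n b y V al s lam η).rk (Sn n m) (1 - T) u ≤
          1 / th q n * ((n : ℝ) ^ (-(100 * q)) * y ^ 2) :=
        mul_le_mul_of_nonneg_left x3 (by positivity)
      have y3 : 0 ≤ th q n * Rn q n y ^ 2 := by positivity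
      show 2 * th q n * Rn q n y ^ 2 + (n : ℝ) ^ (-(39 * q)) * y ^ 2 +
        1 / th q n * (η * (2 + η)) ^ 2 * CC (lawOf n b y V al s lam η) (Sn n m) (1 - T) u +
        1 / th q n * (lawOf n b y V al s lam η).rk (Sn n m) (1 - T) u + 1 / (n : ℝ) ≤ _
      linarith)
  refine le_trans ?_ key
  have ht := w.total (gg_pos hhp.le N).le hN1
  show n * y ^ 2 * b ^ 2 / 4 * (J (b * y) (2 * a) (V / b ^ 2) - (n : ℝ) ^ (-(36 * q)) * y ^ 4) ≤
    n * y ^ 2 * b ^ 2 / 4 * (J (b * y) (2 * a) (V / b ^ 2) -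
      (5 * hh q n * (V / b ^ 2 * Rn q n y + b * y * Rn q n y ^ 3) +
      2 * (hh q n * (2 * a) + en q b n y V a) * Rn q n y ^ 2 + 2 * gg (hh q n) N * Rn q n y ^ 2 +
      2 * (V / b ^ 2) ^ 2 / (T2 q n y - 2 * a) +
      T2 q n y * (4 * (th q n * Rn q n y ^ 2) + 2 * ((n : ℝ) ^ (-(39 * q)) * y ^ 2))))
  refine mul_le_mul_of_nonneg_left ?_ (by positivity)
  linarith

end Vale.Agent.P146.H470
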