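import Vale.Agent.P146.H470.LcC
import Vale.Agent.P146.H75.LcNearV

/-!
# P146: the near bracket of the weak LC

`lcBrW_of`: `LcBrW` from the upper bound with two exponents and the lower law (`H75.W.near_V`).
-/

open MeasureTheory ProbabilityTheory Filter Set

namespace Vale.Agent.P146.H470

open Vale.Agent.P146.H529 Vale.Agent.P146.H75

/-- the near bracket from the bound with two exponents and the lower law -/
theorem lcBrW_of {b p A b₁ b₀ d0 s0 k ce c1 : ℝ} (hb : 1 < b) (hP : W.PsiUp b p A)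
    (hL : W.LawLow b p A b₁) (hb₀ : 0 < b₀) (hd0 : 0 < d0) (hk : 0 < k) (hce : 0 < ce)
    (hc1 : 0 < c1) : LcBrW b b₁ b₀ d0 s0 k ce c1 := by
  intro ε hε
  obtain ⟨κ, hκ, h⟩ := W.near_V hb hP hL hb₀ hd0 hk hc1 ε hε
  refine ⟨κ, hκ, fun A' hA' => ?_⟩
  have hA0 : 0 < A' := by linarith
  filter_upwards [h A' hA', eventually_ge_atTop 1, ev_rpow hb₀ 8, ev_rpow hk A'] with
    n g1 g2 g3 g4 y h1 h2 V h3 h4 _h5 h6 T h7 h8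
  have hn1 : (1 : ℝ) ≤ n := by exact_mod_cast g2
  have hn0 : (0 : ℝ) < n := by linarith
  have hy0 : 0 < y := lt_of_lt_of_le (Real.rpow_pos_of_pos hn0 _) h1
  have hV0 : 0 < V := by
    have : 0 < A' * V := lt_of_lt_of_le (by positivity) h3
    exact (pos_iff_pos_of_mul_pos this).1 hA0
  have hb0' : (n : ℝ) ^ (-b₀) ≤ 1 / 8 := by
    rw [Real.rpow_neg hn0.le, inv_eq_one_div]
    exact one_div_le_one_div_of_le (by norm_num) g3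
  have hs2 : sL k n y ^ 2 = (n : ℝ) ^ (-k) * y ^ 5 := by
    unfold sL
    rw [Real.sq_sqrt (by positivity)]
  have hk1 : A' * (n : ℝ) ^ (-k) ≤ 1 := by
    rw [Real.rpow_neg hn0.le, ← div_eq_mul_inv, div_le_one (Real.rpow_pos_of_pos hn0 _)]
    exact g4
  obtain ⟨m, hm1, hm2, hm⟩ := g1 y h1 h2
  refine ⟨m, hm1, by linarith, ?_⟩
  refine hm V (sL k n y) (etaL ce n) T hV0.le h4 ?_ ?_ ?_ ?_ h7.le ?_ h6
  · rw [hs2]
    have : 0 ≤ (n : ℝ) ^ (-k) * y ^ 5 := by positivity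
    nlinarith
  · rw [hs2]
    calc (n : ℝ) ^ (-k) * y ^ 5 ≤ (n : ℝ) ^ (-k) * (A' * V) :=
          mul_le_mul_of_nonneg_left h3 (by positivity)
      _ = (A' * (n : ℝ) ^ (-k)) * V := by ring
      _ ≤ 1 * V := mul_le_mul_of_nonneg_right hk1 hV0.le
      _ = V := one_mul V
  · exact (Real.rpow_pos_of_pos hn0 _).le
  · exact Real.rpow_le_one_of_one_le_of_nonpos hn1 (by linarith)
  · unfold TL at h8
    have : 0 ≤ (n : ℝ) ^ (-c1) * y ^ 2 := by positivity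
    nlinarith

/-- the far bound for large `T` or for very negative own tangent -/
def LcFar1 (β b₁ b₀ d0 s s0 k ce cl κ ω c1 c4 s2 cM : ℝ) : Prop := ∀ A : ℝ, 1 ≤ A →
  ∀ᶠ n : ℕ in atTop, ∀ y : ℝ, (n : ℝ) ^ (-b₁) ≤ y → y ≤ 2 * (n : ℝ) ^ (-b₀) →
    ∀ V : ℝ, y ^ 5 ≤ A * V → V ≤ A * ((n : ℝ) ^ (-d0) * y ^ 3) → H178.AP β s0 n y (2 * V) →
    ∀ a : ℝ, SG n β y V a → a ≤ A * ((n : ℝ) ^ (-s) * y ^ 2) →
    ∀ T : ℝ, TL c1 n y / 2 ≤ T → T ≤ 1 →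
      ((n : ℝ) ^ s2 * y ^ 2 ≤ T ∨ a ≤ -((n : ℝ) ^ cM * y ^ 2)) →
      T * (H418.lawOf n β y V a (sL k n y) (lamL cl ce n y) (etaL ce n)).rr
        (H418.Sn n (mL c1 c4 n y)) (1 - T) (uQ κ ω n y V) ≤ DL κ n y

/-- the far bound for the remaining `T` -/
def LcFar2 (β b₁ b₀ d0 s s0 k ce cl κ ω c1 c4 s2 cM : ℝ) : Prop := ∀ A : ℝ, 1 ≤ A →
  ∀ᶠ n : ℕ in atTop, ∀ y : ℝ, (n : ℝ) ^ (-b₁) ≤ y → y ≤ 2 * (n : ℝ) ^ (-b₀) →
    ∀ V : ℝ, y ^ 5 ≤ A * V → V ≤ A * ((n : ℝ) ^ (-d0) * y ^ 3) → H178.AP β s0 n y (2 * V) →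
    ∀ a : ℝ, SG n β y V a → a ≤ A * ((n : ℝ) ^ (-s) * y ^ 2) → -((n : ℝ) ^ cM * y ^ 2) ≤ a →
    ∀ T : ℝ, TL c1 n y / 2 ≤ T → T ≤ (n : ℝ) ^ s2 * y ^ 2 →
      T * (H418.lawOf n β y V a (sL k n y) (lamL cl ce n y) (etaL ce n)).rr
        (H418.Sn n (mL c1 c4 n y)) (1 - T) (uQ κ ω n y V) ≤ DL κ n y

theorem lcFarW_of {β b₁ b₀ d0 s s0 k ce cl κ ω c1 c4 s2 cM : ℝ}
    (h1 : LcFar1 β b₁ b₀ d0 s s0 k ce cl κ ω c1 c4 s2 cM)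
    (h2 : LcFar2 β b₁ b₀ d0 s s0 k ce cl κ ω c1 c4 s2 cM) :
    LcFarW β b₁ b₀ d0 s s0 k ce cl κ ω c1 c4 := by
  intro A hA
  filter_upwards [h1 A hA, h2 A hA] with n g1 g2
  intro y hy1 hy2 V hV1 hV2 hap a ha1 ha2 T hT1 hT2
  by_cases hc : (n : ℝ) ^ s2 * y ^ 2 ≤ T ∨ a ≤ -((n : ℝ) ^ cM * y ^ 2)
  · exact g1 y hy1 hy2 V hV1 hV2 hap a ha1 ha2 T hT1 hT2 hc
  · push Not at hc
    exact g2 y hy1 hy2 V hV1 hV2 hap a ha1 ha2 hc.2.le T hT1 hc.1.le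

/-- **The weak LC from its four inputs.** -/
theorem lcampW_of {b p A b₁ b₀ q k : ℝ} (hb : 1 < b) (hq : 0 < q) (hb01 : b₀ ≤ b₁)
    (hb₁ : b₁ ≤ 1 / 10) (hqb : 82 * q ≤ b₀) (hk : 0 < k) (hpath : PathV) (hP : W.PsiUp b p A)
    (hL : W.LawLow b p A b₁)
    (h1 : LcFar1 b b₁ b₀ (23 * q) (10 * q) q k (1 / 4) q q q q (40 * q) (6 * q) (4 * q))
    (h2 : LcFar2 b b₁ b₀ (23 * q) (10 * q) q k (1 / 4) q q q q (40 * q) (6 * q) (4 * q)) :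
    W.LCampW b b₁ b₀ (23 * q) (10 * q) q k (1 / 4) q :=
  lcamp_q (by linarith) hq hb01 hb₁ hqb hk hpath (lcFarW_of h1 h2)
    (lcBrW_of hb hP hL (by linarith) (by positivity) hk (by norm_num) hq)

end Vale.Agent.P146.H470
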