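import Vale.Agent.P146.H470.LcD
import Vale.Agent.P146.H698.FieldOut

/-!
# P146: the weak LC from its three remaining inputs

`pathV : PathV` (`H698.FO.lc_pathV`), `lcampW_fin`.
-/

open MeasureTheory ProbabilityTheory Filter Set

namespace Vale.Agent.P146.H470

open Vale.Agent.P146.H75

theorem pathV : PathV := by
  intro L hl hη hv hx hn m hm hm1 u hu0 hu1 N _ S
  have h := H698.FO.lc_pathV (L := L) (h := 1) (u := u) (u' := 1) hl hη hx hm hm1 hv zero_le_one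
    hu0 hu1 le_rfl hn N S
  have e1 : (1 - 1) * L.vp + L.s ^ 2 * (1 + L.η) ^ 2 = L.s ^ 2 * (1 + L.η) ^ 2 := by ring
  rw [one_mul, e1] at h
  exact h

/-- **The weak LC from the bound with two exponents, the lower law and the far bounds.** -/
theorem lcampW_fin {b p A b₁ b₀ q k : ℝ} (hb : 1 < b) (hq : 0 < q) (hb01 : b₀ ≤ b₁)
    (hb₁ : b₁ ≤ 1 / 10) (hqb : 82 * q ≤ b₀) (hk : 0 < k) (hP : W.PsiUp b p A)
    (hL : W.LawLow b p A b₁)
    (h1 : LcFar1 b b₁ b₀ (23 * q) (10 * q) q k (1 / 4) q q q q (40 * q) (6 * q) (4 * q))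
    (h2 : LcFar2 b b₁ b₀ (23 * q) (10 * q) q k (1 / 4) q q q q (40 * q) (6 * q) (4 * q)) :
    W.LCampW b b₁ b₀ (23 * q) (10 * q) q k (1 / 4) q :=
  lcampW_of hb hq hb01 hb₁ hqb hk pathV hP hL h1 h2

/-- **The weak LC from the near bracket and the far bound.** -/
theorem lcampW_br {b b₁ b₀ q k : ℝ} (hb : 0 < b) (hq : 0 < q) (hb01 : b₀ ≤ b₁)
    (hb₁ : b₁ ≤ 1 / 10) (hqb : 82 * q ≤ b₀) (hk : 0 < k)
    (hfar : LcFarW b b₁ b₀ (23 * q) (10 * q) q k (1 / 4) q q q q (40 * q))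
    (hbr : LcBrW b b₁ b₀ (23 * q) q k (1 / 4) q) :
    W.LCampW b b₁ b₀ (23 * q) (10 * q) q k (1 / 4) q :=
  lcamp_q hb hq hb01 hb₁ hqb hk pathV hfar hbr

end Vale.Agent.P146.H470
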