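import Vale.Agent.P146.H470.LowA

/-!
# P146: the sizes of the numbers of the test function on the lower side
-/

open MeasureTheory ProbabilityTheory Filter Set

namespace Vale.Agent.P146.H470

open Vale.Agent.P146.H418 Vale.Agent.P146.H643 Vale.Agent.P146.H317 Vale.Agent.P146.H529

section

variable {a0 b₁ q A b : ℝ} {n : ℕ} {y V al a : ℝ}

lemma LW.Rn_pos (h : LW a0 b₁ q A b n y V al a) : 0 < Rn q n y := by
  have hn := h.env.n0
  have hy := h.env.y0
  unfold Rn
  positivity

/-- the smallest coefficient of the field -/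
lemma LW.w_low (h : LW a0 b₁ q A b n y V al a) {s u : ℝ} (hs : s ^ 2 ≤ dl q n * V)
    (hu : 1 - 2 * dl q n ≤ u) :
    V / (2 * b ^ 2) ≤ (1 - hh q n / 2) * (u * (V - s ^ 2) / b ^ 2) := by
  have hb := h.b0
  have hV := h.env.V0
  have hdl := h.dl_pos
  have hd := h.dl_le
  have hhp := h.hh_pos
  have hh1 := h.hh_le
  have k0 := h.ww hs
  have k1 : 0 ≤ V - s ^ 2 := by nlinarith
  have k2 : (1 - hh q n / 2) * ((1 - 2 * dl q n) * (V - s ^ 2) / b ^ 2) ≤
      (1 - hh q n / 2) * (u * (V - s ^ 2) / b ^ 2) := by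
    refine mul_le_mul_of_nonneg_left ?_ (by linarith)
    exact div_le_div_of_nonneg_right (mul_le_mul_of_nonneg_right hu k1) (by positivity)
  have k3 : V / (2 * b ^ 2) ≤ (1 - hh q n) * (V / b ^ 2) := by
    have e1 : V / (2 * b ^ 2) = 1 / 2 * (V / b ^ 2) := by
      field_simp
    rw [e1]
    exact mul_le_mul_of_nonneg_right (by linarith) (by positivity)
  linarith

/-- the root of the lower equation -/
lemma LW.rhoL_le (h : LW a0 b₁ q A b n y V al a) {s u T lam η : ℝ} (hs : s ^ 2 ≤ dl q n * V)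
    (hu : 1 - 2 * dl q n ≤ u) (hu1 : u ≤ 1) (hT : 0 ≤ T) :
    0 < rhoL (lawOf n b y V al s lam η) ((1 - hh q n) * (2 * a) - en q b n y V a) (hh q n / 2)
        u T ∧
      rhoL (lawOf n b y V al s lam η) ((1 - hh q n) * (2 * a) - en q b n y V a) (hh q n / 2)
        u T ≤ Rn q n y := by
  have hb := h.b0
  have hV := h.env.V0
  have hy := h.env.y0
  have hhp := h.hh_pos
  have hh1 := h.hh_le
  have ha := h.ap
  have hen := h.en_nonneg
  have hdl := h.dl_pos
  have hd := h.dl_le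
  have hw := h.w_low hs hu
  have hby : 0 < b * y := mul_pos hb hy
  have k1 : 0 ≤ V - s ^ 2 := by nlinarith
  have k2 : (1 - hh q n / 2) * (u * (V - s ^ 2) / b ^ 2) ≤ V / b ^ 2 := by
    have k3 : u * (V - s ^ 2) ≤ 1 * V := by
      refine mul_le_mul hu1 (by linarith [sq_nonneg s]) k1 zero_le_one
    have k4 : u * (V - s ^ 2) / b ^ 2 ≤ V / b ^ 2 :=
      div_le_div_of_nonneg_right (by linarith) (by positivity)
    have k5 : 0 ≤ u * (V - s ^ 2) / b ^ 2 := by
      have : 0 ≤ u := by linarith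
      positivity
    nlinarith
  have hw0 : 0 < (1 - hh q n / 2) * (u * (V - s ^ 2) / b ^ 2) :=
    lt_of_lt_of_le (by positivity) hw
  have hc0 : 0 < (1 + hh q n / 2) * (b * y) := by positivity
  have e1 : rhoL (lawOf n b y V al s lam η) ((1 - hh q n) * (2 * a) - en q b n y V a)
      (hh q n / 2) u T = rho ((1 + hh q n / 2) * (b * y))
      ((1 - hh q n) * (2 * a) - en q b n y V a)
      ((1 - hh q n / 2) * (u * (V - s ^ 2) / b ^ 2)) T := rfl
  rw [e1]
  refine ⟨rho_pos hc0 hw0, ?_⟩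
  refine (rho_mono hby ?_ hw0 k2 ?_).trans h.rho_le
  · nlinarith
  · nlinarith

/-- **the bound of the test function** -/
lemma LW.PL_le (h : LW a0 b₁ q A b n y V al a) {s u T lam η : ℝ} (hs : s ^ 2 ≤ dl q n * V)
    (hu : 1 - 2 * dl q n ≤ u) (hu1 : u ≤ 1) (hT : 0 ≤ T) :
    0 ≤ PL (lawOf n b y V al s lam η) ((1 - hh q n) * (2 * a) - en q b n y V a) (hh q n / 2)
        u T ∧
      PL (lawOf n b y V al s lam η) ((1 - hh q n) * (2 * a) - en q b n y V a) (hh q n / 2)
        u T ≤ (n : ℝ) ^ (5 * q) / y := by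
  obtain ⟨f1, f2, f3, f4, f5, f6, f7, f8, f9, f10, f11, f12⟩ := h.facts
  have hn := h.env.n0
  have hb := h.b0
  have hV := h.env.V0
  have hy := h.env.y0
  have hhp := h.hh_pos
  have hR := h.Rn_pos
  have hw := h.w_low hs hu
  obtain ⟨r1, r2⟩ := h.rhoL_le (T := T) (lam := lam) (η := η) hs hu hu1 hT
  set ρ := rhoL (lawOf n b y V al s lam η) ((1 - hh q n) * (2 * a) - en q b n y V a)
    (hh q n / 2) u T with hρ
  have e1 : PL (lawOf n b y V al s lam η) ((1 - hh q n) * (2 * a) - en q b n y V a)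
      (hh q n / 2) u T = 1 / ((1 + hh q n / 2) * (b * y)) +
        ρ ^ 2 / ((1 - hh q n / 2) * (u * (V - s ^ 2) / b ^ 2)) := rfl
  have hw0 : 0 < (1 - hh q n / 2) * (u * (V - s ^ 2) / b ^ 2) :=
    lt_of_lt_of_le (by positivity) hw
  rw [e1]
  refine ⟨by positivity, ?_⟩
  have c1 := log_c 2 (by norm_num)
  have k1 : 1 / ((1 + hh q n / 2) * (b * y)) ≤ (n : ℝ) ^ (5 * q) / y / 2 := by
    have k2 : 1 / ((1 + hh q n / 2) * (b * y)) ≤ 1 / (b * y) :=
      one_div_le_one_div_of_le (by positivity) (by nlinarith [mul_pos hb hy])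
    refine k2.trans ?_
    refine le_of_log (by positivity) (by positivity) ?_
    simp (disch := positivity) only [Real.log_mul, Real.log_rpow, Real.log_div, Real.log_one]
    linarith
  have k3 : ρ ^ 2 / ((1 - hh q n / 2) * (u * (V - s ^ 2) / b ^ 2)) ≤
      (n : ℝ) ^ (5 * q) / y / 2 := by
    have k4 : ρ ^ 2 / ((1 - hh q n / 2) * (u * (V - s ^ 2) / b ^ 2)) ≤
        Rn q n y ^ 2 / (V / (2 * b ^ 2)) :=
      div_le_div₀ (by positivity) (pow_le_pow_left₀ r1.le r2 2) (by positivity) hw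
    refine k4.trans ?_
    unfold Rn
    refine le_of_log (by positivity) (by positivity) ?_
    simp (disch := positivity) only [Real.log_mul, Real.log_rpow, Real.log_div, Real.log_pow]
    push_cast
    linarith
  linarith

/-- **the Lipschitz constant of the test function** -/
lemma LW.LrL_le (h : LW a0 b₁ q A b n y V al a) {s u T lam η : ℝ} (hs : s ^ 2 ≤ dl q n * V)
    (hu : 1 - 2 * dl q n ≤ u) (hu1 : u ≤ 1) (hT : 0 ≤ T) :
    0 ≤ LrL (lawOf n b y V al s lam η) ((1 - hh q n) * (2 * a) - en q b n y V a) (hh q n / 2)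
        u T ∧
      LrL (lawOf n b y V al s lam η) ((1 - hh q n) * (2 * a) - en q b n y V a) (hh q n / 2)
        u T ≤ (n : ℝ) ^ (12 * q) / (y * √y) := by
  obtain ⟨f1, f2, f3, f4, f5, f6, f7, f8, f9, f10, f11, f12⟩ := h.facts
  have hn := h.env.n0
  have hb := h.b0
  have hV := h.env.V0
  have hy := h.env.y0
  have hhp := h.hh_pos
  have hh1 := h.hh_le
  have hR := h.Rn_pos
  have hw := h.w_low hs hu
  obtain ⟨r1, r2⟩ := h.rhoL_le (T := T) (lam := lam) (η := η) hs hu hu1 hT
  set ρ := rhoL (lawOf n b y V al s lam η) ((1 - hh q n) * (2 * a) - en q b n y V a)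
    (hh q n / 2) u T with hρ
  have e1 : LrL (lawOf n b y V al s lam η) ((1 - hh q n) * (2 * a) - en q b n y V a)
      (hh q n / 2) u T = (1 + (1 + hh q n / 2) * (b * y) * ρ ^ 2 /
        ((1 - hh q n / 2) * (u * (V - s ^ 2) / b ^ 2))) *
        √(ρ / ((1 + hh q n / 2) * (b * y) *
          ((1 - hh q n / 2) * (u * (V - s ^ 2) / b ^ 2)))) := rfl
  have hw0 : 0 < (1 - hh q n / 2) * (u * (V - s ^ 2) / b ^ 2) :=
    lt_of_lt_of_le (by positivity) hw
  rw [e1]
  refine ⟨by positivity, ?_⟩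
  have c1 := log_c 2 (by norm_num)
  have k1 : (1 + hh q n / 2) * (b * y) * ρ ^ 2 /
      ((1 - hh q n / 2) * (u * (V - s ^ 2) / b ^ 2)) ≤ (n : ℝ) ^ (9 / 2 * q) / 2 := by
    have k4 : (1 + hh q n / 2) * (b * y) * ρ ^ 2 /
        ((1 - hh q n / 2) * (u * (V - s ^ 2) / b ^ 2)) ≤
        2 * (b * y) * Rn q n y ^ 2 / (V / (2 * b ^ 2)) := by
      refine div_le_div₀ (by positivity) ?_ (by positivity) hw
      refine mul_le_mul ?_ (pow_le_pow_left₀ r1.le r2 2) (by positivity) (by positivity)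
      exact mul_le_mul_of_nonneg_right (by linarith) (by positivity)
    refine k4.trans ?_
    unfold Rn
    refine le_of_log (by positivity) (by positivity) ?_
    simp (disch := positivity) only [Real.log_mul, Real.log_rpow, Real.log_div, Real.log_pow]
    push_cast
    linarith
  have k5 : 1 ≤ (n : ℝ) ^ (9 / 2 * q) / 2 := by
    refine le_of_log (by positivity) (by positivity) ?_
    simp (disch := positivity) only [Real.log_rpow, Real.log_div, Real.log_one]
    linarith
  have k6 : ρ / ((1 + hh q n / 2) * (b * y) *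
      ((1 - hh q n / 2) * (u * (V - s ^ 2) / b ^ 2))) ≤ Rn q n y / (b * y * (V / (2 * b ^ 2))) := by
    refine div_le_div₀ hR.le r2 (by positivity) ?_
    refine mul_le_mul ?_ hw (by positivity) (by positivity)
    nlinarith [mul_pos hb hy]
  have k7 := Real.sqrt_le_sqrt k6
  have k8 : √(Rn q n y / (b * y * (V / (2 * b ^ 2)))) ≤
      (n : ℝ) ^ (15 / 2 * q) / (y * √y) := by
    unfold Rn
    refine le_of_log (by positivity) (by positivity) ?_
    simp (disch := positivity) only [Real.log_mul, Real.log_rpow, Real.log_div, Real.log_pow,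
      Real.log_sqrt]
    push_cast
    linarith
  calc (1 + (1 + hh q n / 2) * (b * y) * ρ ^ 2 /
        ((1 - hh q n / 2) * (u * (V - s ^ 2) / b ^ 2))) *
        √(ρ / ((1 + hh q n / 2) * (b * y) *
          ((1 - hh q n / 2) * (u * (V - s ^ 2) / b ^ 2))))
      ≤ (n : ℝ) ^ (9 / 2 * q) * ((n : ℝ) ^ (15 / 2 * q) / (y * √y)) := by
        refine mul_le_mul (by linarith) (k7.trans k8) (Real.sqrt_nonneg _) (by positivity)
    _ = (n : ℝ) ^ (12 * q) / (y * √y) := by
        rw [← mul_div_assoc, ← Real.rpow_add hn]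
        congr 2
        ring

end

end Vale.Agent.P146.H470
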