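import Vale.Agent.P146.H470.LowA
import Vale.Agent.P146.H178.KDiff
import Vale.Agent.P146.H529.Par2

/-!
# P146: `KampLow` from the size of the row equation, for the two choices of the modulated field
-/

open MeasureTheory ProbabilityTheory Filter Set

namespace Vale.Agent.P146.H470

open Vale.Agent.P146.H418 Vale.Agent.P146.H643 Vale.Agent.P146.H317 Vale.Agent.P146.H529
  Vale.Agent.P146.H178

/-- `KampLow` from the window: abstract form -/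
theorem kampLow_of {β b₁ e q a0 : ℝ} {sF lF hF : ℕ → ℝ → ℝ → ℝ} (hβ : 0 < β) (hq : 0 < q)
    (ha0 : a0 ≤ 1 / 6) (hb₁ : 100 * q < b₁) (he : 1 / 6 - a0 + 1000 * q ≤ e)
    (hkw : ∀ A : ℝ, 1 ≤ A → ∀ᶠ n : ℕ in atTop, ∀ y V al : ℝ,
      (n : ℝ) ^ (-a0 + 1000 * q) ≤ A * y → y ≤ A * (n : ℝ) ^ (-b₁) →
      (n : ℝ) ^ (-(24 * q)) * y ^ 3 ≤ A * V → V ≤ A * ((n : ℝ) ^ (-(24 * q)) * y ^ 3) →
      SG n β y V al → H178.AP β (q / 2) n y (2 * V) →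
      KW a0 b₁ q A β n y V al (sF n y V) (lF n y V) (hF n y V))
    (hrow : ∀ A : ℝ, 1 ≤ A → RowLow a0 b₁ q A β) :
    KampLow β b₁ e (q / 2) (10 * q) (11 * q) (24 * q) q (Kam β sF lF hF) := by
  intro A hA
  filter_upwards [hkw A hA, lw_ev (a0 := a0) (b₁ := b₁) (q := q) (A := A) (b := β) hq hβ hA ha0 hb₁,
    klow_kw (hrow A hA), eventually_ge_atTop 1] with n k1 k2 k3 hn
  intro y hy hyu V hVl hVu a hal hau a0' hsg haa hap
  have hn1 : (1 : ℝ) ≤ n := by exact_mod_cast hn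
  have hy2 : (n : ℝ) ^ (-a0 + 1000 * q) ≤ A * y :=
    (Real.rpow_le_rpow_of_exponent_le hn1 (by linarith)).trans hy
  have hkw' := k1 y V a0' hy2 hyu hVl hVu hsg hap
  have hlw := k2 y V a0' _ _ _ a hkw' hal hau haa
  have h := k3 y V a0' _ _ _ a hkw' hlw
  rw [Kam_lawOf]
  have e1 : -(24 * q + 11 * q + q) = -(36 * q) := by ring
  rw [e1]
  exact h

/-- the first choice: `s² = n^(-37q) y⁴`, `a0 ≤ 1/7` -/
theorem kampLow_one {β b₁ e q a0 : ℝ} (hβ : 0 < β) (hq : 0 < q)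
    (ha0 : a0 ≤ 1 / 7) (hb₁ : 100 * q < b₁) (he : 1 / 6 - a0 + 1000 * q ≤ e)
    (hrow : ∀ A : ℝ, 1 ≤ A → RowLow a0 b₁ q A β) :
    KampLow β b₁ e (q / 2) (10 * q) (11 * q) (24 * q) q (Kam β (sA q) (lA q) (hA q)) :=
  kampLow_of hβ hq (by linarith) hb₁ he (fun _ hA => kw_one hq ha0 hb₁ hA) hrow

/-- the second choice: `s² = n^(-80q) V`, `a0 ≤ 1/6` -/
theorem kampLow_two {β b₁ e q a0 : ℝ} (hβ : 0 < β) (hq : 0 < q)
    (ha0 : a0 ≤ 1 / 6) (hb₁ : 100 * q < b₁) (he : 1 / 6 - a0 + 1000 * q ≤ e)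
    (hrow : ∀ A : ℝ, 1 ≤ A → RowLow a0 b₁ q A β) :
    KampLow β b₁ e (q / 2) (10 * q) (11 * q) (24 * q) q (Kam β (sB q) (lA q) (hA q)) :=
  kampLow_of hβ hq ha0 hb₁ he (fun _ hA => kw_two hq ha0 hA) hrow

end Vale.Agent.P146.H470
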