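import Vale.Agent.P146.H470.LcE
import Vale.Agent.P146.H470.LowA0
import Vale.Agent.P146.H418.Par
import Vale.Agent.P146.H75.LcLit
import Vale.Agent.P146.H412.Q1g
import Vale.Agent.P146.H197.KUp

/-!
# P146: LC from the two zone bounds

`lcampL_of_zones`: the entropy of the amplitude law is at most `ε n y⁶` on the window of LC if
`T rr(T) ≤ n^(-κ) y⁴` on `[T1 / 2, 1]` (with hidden sites) and on `[n^(-κ) y⁴ / 2, T1]`.
-/

open MeasureTheory ProbabilityTheory Filter Set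

namespace Vale.Agent.P146.H470

open Vale.Agent.P146.H418 Vale.Agent.P146.H529 Vale.Agent.P146.H75

/-- the final share of the plain field -/
noncomputable def uP (κ : ℝ) (n : ℕ) (y V : ℝ) : ℝ := max (1 / 2) (1 - (n : ℝ) ^ (-κ) * y ^ 4 / V)

/-- the share of the plain field in the main part -/
noncomputable def uQ (κ ω : ℝ) (n : ℕ) (y V : ℝ) : ℝ := (1 - (n : ℝ) ^ (-ω)) * uP κ n y V

/-- the end of the main part -/
noncomputable def TL (c1 : ℝ) (n : ℕ) (y : ℝ) : ℝ := (n : ℝ) ^ (-c1) * y ^ 2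

/-- the end of the near part -/
noncomputable def DL (κ : ℝ) (n : ℕ) (y : ℝ) : ℝ := (n : ℝ) ^ (-κ) * y ^ 4

/-- the number of the hidden sites -/
noncomputable def mL (c1 c4 : ℝ) (n : ℕ) (y : ℝ) : ℕ := 2 * ⌈(n : ℝ) ^ (1 - c1 - c4) * y ^ 2⌉₊

section num

variable {β A ε b₁ b₀ d0 q κ ω c1 c4 s1 : ℝ} {n : ℕ} {y V : ℝ}

lemma uP_mem (κ : ℝ) (n : ℕ) {y V : ℝ} (hV : 0 < V) (hy : 0 < y) :
    1 / 2 ≤ uP κ n y V ∧ uP κ n y V ≤ 1 := by
  unfold uP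
  refine ⟨le_max_left _ _, max_le (by norm_num) ?_⟩
  have : 0 ≤ (n : ℝ) ^ (-κ) * y ^ 4 / V := by positivity
  linarith

lemma uP_V (κ : ℝ) (n : ℕ) {y V : ℝ} (hV : 0 < V) (hy : 0 < y) :
    (1 - uP κ n y V) * V ≤ (n : ℝ) ^ (-κ) * y ^ 4 := by
  have h1 : 1 - (n : ℝ) ^ (-κ) * y ^ 4 / V ≤ uP κ n y V := le_max_right _ _
  have h2 : 1 - uP κ n y V ≤ (n : ℝ) ^ (-κ) * y ^ 4 / V := by linarith
  have h3 := mul_le_mul_of_nonneg_right h2 hV.le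
  rwa [div_mul_cancel₀ _ hV.ne'] at h3

lemma LcF.om (h : LcF β A ε b₁ b₀ d0 q κ ω c1 c4 s1 n y V) :
    0 < (n : ℝ) ^ (-ω) ∧ (n : ℝ) ^ (-ω) ≤ 1 := by
  have hn := h.env.n0
  have hL := h.env.L1
  refine ⟨Real.rpow_pos_of_pos hn _, ?_⟩
  refine le_of_log (by positivity) one_pos ?_
  rw [Real.log_rpow hn, Real.log_one]
  have := h.ex.ω0
  nlinarith

lemma LcF.uQ_mem (h : LcF β A ε b₁ b₀ d0 q κ ω c1 c4 s1 n y V) :
    0 ≤ uQ κ ω n y V ∧ uQ κ ω n y V ≤ uP κ n y V ∧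
      uP κ n y V - uQ κ ω n y V ≤ (n : ℝ) ^ (-ω) := by
  obtain ⟨o1, o2⟩ := h.om
  obtain ⟨p1, p2⟩ := uP_mem κ n h.env.V0 h.env.y0
  unfold uQ
  refine ⟨mul_nonneg (by linarith) (by linarith), by nlinarith, by nlinarith⟩

lemma LcF.mL_le (h : LcF β A ε b₁ b₀ d0 q κ ω c1 c4 s1 n y V) :
    (mL c1 c4 n y : ℝ) / n ≤ 4 * ((n : ℝ) ^ (-(c1 + c4)) * y ^ 2) ∧ mL c1 c4 n y ≤ n := by
  obtain ⟨f1, f2, f3, f4, f5, f6, f7, f8, f9, f10, f11, f12⟩ := h.facts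
  have hn := h.env.n0
  have hy := h.env.y0
  have hx := h.ex
  have m1 : (c1 + c4) * Real.log n ≤ 1 / 2 * Real.log n :=
    mul_le_mul_of_nonneg_right hx.c11 (by linarith)
  have m2 : (2 * q) * Real.log n ≤ b₀ * Real.log n :=
    mul_le_mul_of_nonneg_right hx.b0 (by linarith)
  have m3 : 0 ≤ c1 * Real.log n := mul_nonneg hx.c10.le (by linarith)
  have m4 : (s1 + q) * Real.log n ≤ c4 * Real.log n :=
    mul_le_mul_of_nonneg_right hx.c40 (by linarith)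
  have m5 : 0 ≤ s1 * Real.log n := mul_nonneg hx.s1q.le (by linarith)
  have m6 : b₀ * Real.log n ≤ b₁ * Real.log n :=
    mul_le_mul_of_nonneg_right hx.bb (by linarith)
  have m7 : b₁ * Real.log n ≤ 1 / 10 * Real.log n :=
    mul_le_mul_of_nonneg_right hx.b1 (by linarith)
  have k1 : 1 ≤ (n : ℝ) ^ (1 - c1 - c4) * y ^ 2 := by
    refine le_of_log (by positivity) (by positivity) ?_
    simp (disch := positivity) only [Real.log_mul, Real.log_rpow, Real.log_pow, Real.log_one]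
    push_cast
    linarith
  have k2 := (Nat.ceil_lt_add_one (show 0 ≤ (n : ℝ) ^ (1 - c1 - c4) * y ^ 2 by positivity)).le
  have k3 : (mL c1 c4 n y : ℝ) ≤ 4 * ((n : ℝ) ^ (1 - c1 - c4) * y ^ 2) := by
    unfold mL
    push_cast
    linarith
  have e1 : (n : ℝ) ^ (1 - c1 - c4) = n * (n : ℝ) ^ (-(c1 + c4)) := by
    rw [show (1 : ℝ) - c1 - c4 = 1 + -(c1 + c4) by ring, Real.rpow_add hn, Real.rpow_one]
  have k4 : (mL c1 c4 n y : ℝ) / n ≤ 4 * ((n : ℝ) ^ (-(c1 + c4)) * y ^ 2) := by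
    rw [div_le_iff₀ hn]
    refine k3.trans (le_of_eq ?_)
    rw [e1]
    ring
  refine ⟨k4, ?_⟩
  have k5 : 4 * ((n : ℝ) ^ (-(c1 + c4)) * y ^ 2) ≤ 1 := by
    have c1' := log_c 4 (by norm_num)
    refine le_of_log (by positivity) (by positivity) ?_
    simp (disch := positivity) only [Real.log_mul, Real.log_rpow, Real.log_pow, Real.log_one]
    push_cast
    linarith
  have k6 : (mL c1 c4 n y : ℝ) ≤ n := by
    have := (div_le_iff₀ hn).1 (k4.trans k5)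
    linarith
  exact_mod_cast k6

/-- the slacks -/
lemma LcF.slack (h : LcF β A ε b₁ b₀ d0 q κ ω c1 c4 s1 n y V) :
    (2 * q) * Real.log n ≤ b₀ * Real.log n ∧ (2 * q) * Real.log n ≤ κ * Real.log n ∧
      κ * Real.log n ≤ 1 * Real.log n ∧ (s1 / 2 + q) * Real.log n ≤ b₀ * Real.log n ∧
      (s1 + q) * Real.log n ≤ c4 * Real.log n ∧
      (c1 / 2 + s1 / 2 + q) * Real.log n ≤ (ω + d0) * Real.log n ∧
      0 ≤ d0 * Real.log n ∧ 0 ≤ c1 * Real.log n ∧ 0 ≤ s1 * Real.log n := by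
  have hL := h.env.L1
  have hx := h.ex
  exact ⟨mul_le_mul_of_nonneg_right hx.b0 (by linarith),
    mul_le_mul_of_nonneg_right hx.κ0 (by linarith),
    mul_le_mul_of_nonneg_right hx.κ1 (by linarith),
    mul_le_mul_of_nonneg_right hx.s1b (by linarith),
    mul_le_mul_of_nonneg_right hx.c40 (by linarith),
    mul_le_mul_of_nonneg_right hx.dω (by linarith),
    mul_nonneg hx.d (by linarith), mul_nonneg hx.c10.le (by linarith),
    mul_nonneg hx.s1q.le (by linarith)⟩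

lemma LcF.DL_pos (h : LcF β A ε b₁ b₀ d0 q κ ω c1 c4 s1 n y V) : 0 < DL κ n y := by
  have hn := h.env.n0
  have hy := h.env.y0
  unfold DL
  positivity

lemma LcF.TL_pos (h : LcF β A ε b₁ b₀ d0 q κ ω c1 c4 s1 n y V) : 0 < TL c1 n y := by
  have hn := h.env.n0
  have hy := h.env.y0
  unfold TL
  positivity

/-- the number of the levels -/
lemma LcF.lgg (h : LcF β A ε b₁ b₀ d0 q κ ω c1 c4 s1 n y V) {g' : ℝ} (hg'0 : 0 < g')
    (hg' : DL κ n y ≤ 2 * g') : Real.log (1 / g') ≤ 3 * Real.log n := by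
  obtain ⟨f1, f2, f3, f4, f5, f6, f7, f8, f9, f10, f11, f12⟩ := h.facts
  obtain ⟨m1, m2, m3, m4, m5, m6, m7, m8, m9⟩ := h.slack
  have hn := h.env.n0
  have hy := h.env.y0
  have hDp := h.DL_pos
  have a1 := log_c 2 (by norm_num)
  have h1 : 1 / g' ≤ 2 / DL κ n y := by
    rw [div_le_div_iff₀ hg'0 hDp]
    linarith
  refine (Real.log_le_log (by positivity) h1).trans ?_
  unfold DL
  simp (disch := positivity) only [Real.log_div, Real.log_mul, Real.log_rpow, Real.log_pow]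
  push_cast
  linarith

/-- the level sums -/
lemma LcF.t1 (h : LcF β A ε b₁ b₀ d0 q κ ω c1 c4 s1 n y V) {l : ℝ}
    (hl : l ≤ 3 * Real.log n) : β ^ 2 / 4 * (2 * DL κ n y * l) ≤ ε * y ^ 4 / 10 := by
  obtain ⟨f1, f2, f3, f4, f5, f6, f7, f8, f9, f10, f11, f12⟩ := h.facts
  obtain ⟨m1, m2, m3, m4, m5, m6, m7, m8, m9⟩ := h.slack
  have hn := h.env.n0
  have hy := h.env.y0
  have hβ := h.β0
  have hε := h.ε0
  have hDp := h.DL_pos
  have hLn : 0 < Real.log n := by linarith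
  have a1 := log_c 2 (by norm_num)
  have a3 := log_c 10 (by norm_num)
  have a7 := log_c 3 (by norm_num)
  have a8 := Real.log_nonneg (show (1 : ℝ) ≤ 4 by norm_num)
  have h1 : β ^ 2 / 4 * (2 * DL κ n y * l) ≤
      β ^ 2 / 4 * (2 * DL κ n y * (3 * Real.log n)) := by gcongr
  refine h1.trans ?_
  unfold DL
  refine le_of_log (by positivity) (by positivity) ?_
  simp (disch := positivity) only [Real.log_div, Real.log_mul, Real.log_rpow, Real.log_pow]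
  push_cast
  linarith

lemma LcF.t3 (h : LcF β A ε b₁ b₀ d0 q κ ω c1 c4 s1 n y V) {g' : ℝ} (hg' : g' ≤ DL κ n y) :
    β ^ 2 / 4 * g' ≤ ε * y ^ 4 / 10 := by
  obtain ⟨f1, f2, f3, f4, f5, f6, f7, f8, f9, f10, f11, f12⟩ := h.facts
  obtain ⟨m1, m2, m3, m4, m5, m6, m7, m8, m9⟩ := h.slack
  have hn := h.env.n0
  have hy := h.env.y0
  have hβ := h.β0
  have hε := h.ε0
  have a3 := log_c 10 (by norm_num)
  have a8 := Real.log_nonneg (show (1 : ℝ) ≤ 4 by norm_num)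
  have h1 : β ^ 2 / 4 * g' ≤ β ^ 2 / 4 * DL κ n y := by gcongr
  refine h1.trans ?_
  unfold DL
  refine le_of_log (by positivity) (by positivity) ?_
  simp (disch := positivity) only [Real.log_div, Real.log_mul, Real.log_rpow, Real.log_pow]
  push_cast
  linarith

lemma LcF.t4 (h : LcF β A ε b₁ b₀ d0 q κ ω c1 c4 s1 n y V) {s2 η : ℝ} (hs2 : s2 ≤ y ^ 5)
    (hη0 : 0 ≤ η) (hη : η ≤ 1 / 3) : 1 / 2 * (s2 * (1 + η) ^ 2) ≤ ε * y ^ 4 / 10 := by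
  obtain ⟨f1, f2, f3, f4, f5, f6, f7, f8, f9, f10, f11, f12⟩ := h.facts
  obtain ⟨m1, m2, m3, m4, m5, m6, m7, m8, m9⟩ := h.slack
  have hy := h.env.y0
  have hε := h.ε0
  have a3 := log_c 10 (by norm_num)
  have h0 : (1 + η) ^ 2 ≤ 2 := by nlinarith
  have h1 : 1 / 2 * (s2 * (1 + η) ^ 2) ≤ 1 / 2 * (y ^ 5 * 2) := by gcongr
  have h2 : 1 / 2 * (y ^ 5 * 2) = y ^ 5 := by ring
  rw [h2] at h1
  refine h1.trans ?_
  refine le_of_log (by positivity) (by positivity) ?_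
  simp (disch := positivity) only [Real.log_div, Real.log_mul, Real.log_pow]
  push_cast
  linarith

lemma LcF.t5 (h : LcF β A ε b₁ b₀ d0 q κ ω c1 c4 s1 n y V) {vp U1 : ℝ} (hvp : vp ≤ V)
    (hU0 : 0 ≤ U1) (hU1 : U1 * V ≤ DL κ n y) : 1 / 2 * (vp * U1) ≤ ε * y ^ 4 / 10 := by
  obtain ⟨f1, f2, f3, f4, f5, f6, f7, f8, f9, f10, f11, f12⟩ := h.facts
  obtain ⟨m1, m2, m3, m4, m5, m6, m7, m8, m9⟩ := h.slack
  have hn := h.env.n0
  have hy := h.env.y0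
  have hε := h.ε0
  have a3 := log_c 10 (by norm_num)
  have a8 := Real.log_nonneg (show (1 : ℝ) ≤ 2 by norm_num)
  have h1 : vp * U1 ≤ V * U1 := mul_le_mul_of_nonneg_right hvp hU0
  have h2 : 1 / 2 * (vp * U1) ≤ 1 / 2 * DL κ n y := by nlinarith
  refine h2.trans ?_
  unfold DL
  refine le_of_log (by positivity) (by positivity) ?_
  simp (disch := positivity) only [Real.log_div, Real.log_mul, Real.log_rpow, Real.log_pow,
    Real.log_one]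
  push_cast
  linarith

lemma LcF.t6 (h : LcF β A ε b₁ b₀ d0 q κ ω c1 c4 s1 n y V) {vp u : ℝ}
    (hvp : vp ≤ V) (hu0 : 0 ≤ u) (hu : u ≤ 1) :
    1 / 2 * (vp * (u * √(12 * ((n : ℝ) ^ s1 * y ^ 4) / β ^ 2))) ≤ ε * y ^ 4 / 10 := by
  obtain ⟨f1, f2, f3, f4, f5, f6, f7, f8, f9, f10, f11, f12⟩ := h.facts
  obtain ⟨m1, m2, m3, m4, m5, m6, m7, m8, m9⟩ := h.slack
  have hn := h.env.n0
  have hy := h.env.y0
  have hV := h.env.V0
  have hβ := h.β0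
  have hε := h.ε0
  have a3 := log_c 10 (by norm_num)
  have a4 := log_c 12 (by norm_num)
  have a8 := Real.log_nonneg (show (1 : ℝ) ≤ 2 by norm_num)
  have h1 : 1 / 2 * (vp * (u * √(12 * ((n : ℝ) ^ s1 * y ^ 4) / β ^ 2))) ≤
      1 / 2 * (V * (1 * √(12 * ((n : ℝ) ^ s1 * y ^ 4) / β ^ 2))) := by gcongr
  refine h1.trans ?_
  refine le_of_log (by positivity) (by positivity) ?_
  simp (disch := positivity) only [Real.log_div, Real.log_mul, Real.log_rpow, Real.log_pow,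
    Real.log_one, Real.log_sqrt]
  push_cast
  linarith

lemma LcF.hC (h : LcF β A ε b₁ b₀ d0 q κ ω c1 c4 s1 n y V) {g : ℝ} (hg : TL c1 n y ≤ 2 * g) :
    12 * ((n : ℝ) ^ s1 * y ^ 4) / (β ^ 2 * g) ≤
      24 * ((n : ℝ) ^ s1 * y ^ 4) / (β ^ 2 * TL c1 n y) := by
  have hn := h.env.n0
  have hy := h.env.y0
  have hβ := h.β0
  have hTp := h.TL_pos
  have hg0 : 0 < g := by linarith
  rw [div_le_div_iff₀ (by positivity) (by positivity)]
  have h1 : 0 ≤ 12 * ((n : ℝ) ^ s1 * y ^ 4) * β ^ 2 := by positivity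
  have h2 := mul_le_mul_of_nonneg_left hg h1
  nlinarith

lemma LcF.t7 (h : LcF β A ε b₁ b₀ d0 q κ ω c1 c4 s1 n y V) {vp g δ : ℝ}
    (hvp : vp ≤ V) (hg : TL c1 n y ≤ 2 * g) (hδ0 : 0 ≤ δ)
    (hδ : δ ≤ 4 * ((n : ℝ) ^ (-(c1 + c4)) * y ^ 2)) :
    1 / 2 * (vp * (δ * √(12 * ((n : ℝ) ^ s1 * y ^ 4) / (β ^ 2 * g)))) ≤ ε * y ^ 4 / 10 := by
  obtain ⟨f1, f2, f3, f4, f5, f6, f7, f8, f9, f10, f11, f12⟩ := h.facts
  obtain ⟨m1, m2, m3, m4, m5, m6, m7, m8, m9⟩ := h.slack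
  have hn := h.env.n0
  have hy := h.env.y0
  have hV := h.env.V0
  have hβ := h.β0
  have hε := h.ε0
  have a2 := log_c 4 (by norm_num)
  have a3 := log_c 10 (by norm_num)
  have a5 := log_c 24 (by norm_num)
  have a8 := Real.log_nonneg (show (1 : ℝ) ≤ 2 by norm_num)
  have hCs := Real.sqrt_le_sqrt (h.hC hg)
  have h1 : 1 / 2 * (vp * (δ * √(12 * ((n : ℝ) ^ s1 * y ^ 4) / (β ^ 2 * g)))) ≤
      1 / 2 * (V * ((4 * ((n : ℝ) ^ (-(c1 + c4)) * y ^ 2)) *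
        √(24 * ((n : ℝ) ^ s1 * y ^ 4) / (β ^ 2 * TL c1 n y)))) := by gcongr
  refine h1.trans ?_
  unfold TL
  refine le_of_log (by positivity) (by positivity) ?_
  simp (disch := positivity) only [Real.log_div, Real.log_mul, Real.log_rpow, Real.log_pow,
    Real.log_one, Real.log_sqrt]
  push_cast
  linarith

lemma LcF.t8 (h : LcF β A ε b₁ b₀ d0 q κ ω c1 c4 s1 n y V) {vp g D1 : ℝ}
    (hvp : vp ≤ V) (hg : TL c1 n y ≤ 2 * g) (hD0 : 0 ≤ D1) (hD1 : D1 ≤ (n : ℝ) ^ (-ω)) :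
    1 / 2 * (vp * (D1 * √(12 * ((n : ℝ) ^ s1 * y ^ 4) / (β ^ 2 * g)))) ≤ ε * y ^ 4 / 10 := by
  obtain ⟨f1, f2, f3, f4, f5, f6, f7, f8, f9, f10, f11, f12⟩ := h.facts
  obtain ⟨m1, m2, m3, m4, m5, m6, m7, m8, m9⟩ := h.slack
  have hn := h.env.n0
  have hy := h.env.y0
  have hV := h.env.V0
  have hβ := h.β0
  have hε := h.ε0
  have a3 := log_c 10 (by norm_num)
  have a5 := log_c 24 (by norm_num)
  have a8 := Real.log_nonneg (show (1 : ℝ) ≤ 2 by norm_num)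
  have hCs := Real.sqrt_le_sqrt (h.hC hg)
  have h1 : 1 / 2 * (vp * (D1 * √(12 * ((n : ℝ) ^ s1 * y ^ 4) / (β ^ 2 * g)))) ≤
      1 / 2 * (V * ((n : ℝ) ^ (-ω) *
        √(24 * ((n : ℝ) ^ s1 * y ^ 4) / (β ^ 2 * TL c1 n y)))) := by gcongr
  refine h1.trans ?_
  unfold TL
  refine le_of_log (by positivity) (by positivity) ?_
  simp (disch := positivity) only [Real.log_div, Real.log_mul, Real.log_rpow, Real.log_pow,
    Real.log_one, Real.log_sqrt]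
  push_cast
  linarith

lemma LcF.t9 (h : LcF β A ε b₁ b₀ d0 q κ ω c1 c4 s1 n y V) {g δ : ℝ}
    (hg : TL c1 n y ≤ 2 * g) (hδ0 : 0 ≤ δ) (hδ : δ ≤ 4 * ((n : ℝ) ^ (-(c1 + c4)) * y ^ 2)) :
    β ^ 2 / 4 * (2 * δ * (12 * ((n : ℝ) ^ s1 * y ^ 4) / (β ^ 2 * g))) ≤ ε * y ^ 4 / 10 := by
  obtain ⟨f1, f2, f3, f4, f5, f6, f7, f8, f9, f10, f11, f12⟩ := h.facts
  obtain ⟨m1, m2, m3, m4, m5, m6, m7, m8, m9⟩ := h.slack
  have hn := h.env.n0
  have hy := h.env.y0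
  have hβ := h.β0
  have hε := h.ε0
  have hTp := h.TL_pos
  have hg0 : 0 < g := by linarith
  have a1 := log_c 2 (by norm_num)
  have a2 := log_c 4 (by norm_num)
  have a3 := log_c 10 (by norm_num)
  have a5 := log_c 24 (by norm_num)
  have a8 := Real.log_nonneg (show (1 : ℝ) ≤ 4 by norm_num)
  have hC := h.hC hg
  have h1 : β ^ 2 / 4 * (2 * δ * (12 * ((n : ℝ) ^ s1 * y ^ 4) / (β ^ 2 * g))) ≤
      β ^ 2 / 4 * (2 * (4 * ((n : ℝ) ^ (-(c1 + c4)) * y ^ 2)) *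
        (24 * ((n : ℝ) ^ s1 * y ^ 4) / (β ^ 2 * TL c1 n y))) := by gcongr
  refine h1.trans ?_
  unfold TL
  refine le_of_log (by positivity) (by positivity) ?_
  simp (disch := positivity) only [Real.log_div, Real.log_mul, Real.log_rpow, Real.log_pow]
  push_cast
  linarith

/-- **the sum of the errors** -/
lemma LcF.total (h : LcF β A ε b₁ b₀ d0 q κ ω c1 c4 s1 n y V)
    {g g' vp u s2 η : ℝ} (hg : TL c1 n y ≤ 2 * g) (hg1 : g ≤ 1) (hg'0 : 0 < g')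
    (hg' : DL κ n y ≤ 2 * g') (hg'1 : g' ≤ DL κ n y) (hgg : g' ≤ g)
    (hvp : vp ≤ V) (hu : u ≤ 1) (hu0 : 0 ≤ u)
    (hs2 : s2 ≤ y ^ 5) (hη0 : 0 ≤ η) (hη : η ≤ 1 / 3)
    {δ : ℝ} (hδ0 : 0 ≤ δ) (hδ : δ ≤ 4 * ((n : ℝ) ^ (-(c1 + c4)) * y ^ 2)) {D1 : ℝ} (hD0 : 0 ≤ D1)
    (hD1 : D1 ≤ (n : ℝ) ^ (-ω)) {U1 : ℝ} (hU0 : 0 ≤ U1) (hU1 : U1 * V ≤ DL κ n y) :
    β ^ 2 / 4 * (2 * DL κ n y * Real.log (1 / g) +
      (2 / β ^ 2 * vp * (u * √(12 * ((n : ℝ) ^ s1 * y ^ 4) / β ^ 2) +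
        (δ + D1) * √(12 * ((n : ℝ) ^ s1 * y ^ 4) / (β ^ 2 * g)) + U1) +
        2 / β ^ 2 * (s2 * (1 + η) ^ 2) + 2 * δ * (12 * ((n : ℝ) ^ s1 * y ^ 4) / (β ^ 2 * g)) +
        2 * DL κ n y * Real.log (g / g') + g')) ≤ ε * y ^ 4 := by
  have hy := h.env.y0
  have hβ := h.β0
  have hε := h.ε0
  have hg0 : 0 < g := lt_of_lt_of_le hg'0 hgg
  have lgg := h.lgg hg'0 hg'
  have lg1 : Real.log (1 / g) ≤ 3 * Real.log n :=
    (Real.log_le_log (by positivity) (one_div_le_one_div_of_le hg'0 hgg)).trans lgg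
  have lg2 : Real.log (g / g') ≤ 3 * Real.log n :=
    (Real.log_le_log (by positivity) (div_le_div_of_nonneg_right hg1 hg'0.le)).trans lgg
  have t1 := h.t1 lg1
  have t2 := h.t1 lg2
  have t3 := h.t3 hg'1
  have t4 := h.t4 hs2 hη0 hη
  have t5 := h.t5 hvp hU0 hU1
  have t6 := h.t6 hvp hu0 hu
  have t7 := h.t7 hvp hg hδ0 hδ
  have t8 := h.t8 hvp hg hD0 hD1
  have t9 := h.t9 hg hδ0 hδ
  have e1 : β ^ 2 / 4 * (2 * DL κ n y * Real.log (1 / g) +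
      (2 / β ^ 2 * vp * (u * √(12 * ((n : ℝ) ^ s1 * y ^ 4) / β ^ 2) +
        (δ + D1) * √(12 * ((n : ℝ) ^ s1 * y ^ 4) / (β ^ 2 * g)) + U1) +
        2 / β ^ 2 * (s2 * (1 + η) ^ 2) + 2 * δ * (12 * ((n : ℝ) ^ s1 * y ^ 4) / (β ^ 2 * g)) +
        2 * DL κ n y * Real.log (g / g') + g')) =
      β ^ 2 / 4 * (2 * DL κ n y * Real.log (1 / g)) +
      β ^ 2 / 4 * (2 * DL κ n y * Real.log (g / g')) + β ^ 2 / 4 * g' +
      1 / 2 * (s2 * (1 + η) ^ 2) + 1 / 2 * (vp * U1) +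
      1 / 2 * (vp * (u * √(12 * ((n : ℝ) ^ s1 * y ^ 4) / β ^ 2))) +
      1 / 2 * (vp * (δ * √(12 * ((n : ℝ) ^ s1 * y ^ 4) / (β ^ 2 * g)))) +
      1 / 2 * (vp * (D1 * √(12 * ((n : ℝ) ^ s1 * y ^ 4) / (β ^ 2 * g)))) +
      β ^ 2 / 4 * (2 * δ * (12 * ((n : ℝ) ^ s1 * y ^ 4) / (β ^ 2 * g))) := by
    generalize √(12 * ((n : ℝ) ^ s1 * y ^ 4) / β ^ 2) = r1
    generalize √(12 * ((n : ℝ) ^ s1 * y ^ 4) / (β ^ 2 * g)) = r2
    generalize 12 * ((n : ℝ) ^ s1 * y ^ 4) / (β ^ 2 * g) = r3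
    have hβ2 : β ≠ 0 := hβ.ne'
    field_simp
    ring
  rw [e1]
  have : 0 < ε * y ^ 4 := by positivity
  linarith

end num

end Vale.Agent.P146.H470
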