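import Vale.Agent.P146.H470.LcA
import Vale.Agent.P146.H698.KgridL

/-!
# P146: LC from the two zone bounds

`lcampL_of_zones`: `H75.LCampL` from `LcFar` (`T rr(T) ≤ n^(-κ) y⁴` on `[T1 / 2, 1]`, with hidden
sites) and `LcNear` (the same on `[n^(-κ) y⁴ / 2, T1]`, all the sites).
-/

open MeasureTheory ProbabilityTheory Filter Set

namespace Vale.Agent.P146.H470

open Vale.Agent.P146.H418 Vale.Agent.P146.H529 Vale.Agent.P146.H75

/-- The data of LC. -/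
structure LcD (β b₁ b₀ d0 sg s0 k1 k2 ce cl A : ℝ) (n : ℕ) (y V s lam η a : ℝ) : Prop where
  yl : (n : ℝ) ^ (-b₁) ≤ A * y
  yu : y ≤ A * (n : ℝ) ^ (-b₀)
  Vl : y ^ 5 ≤ A * V
  Vu : V ≤ A * ((n : ℝ) ^ (-d0) * y ^ 3)
  s0' : 0 < s
  s2l : (n : ℝ) ^ (-k2) * y ^ 5 ≤ s ^ 2
  s2u : s ^ 2 ≤ (n : ℝ) ^ (-k1) * y ^ 5
  η0 : 0 < η
  η1 : η ≤ (n : ℝ) ^ (-ce)
  ll : (n : ℝ) ^ cl ≤ y * (lam * η)
  lu : y * (lam * η) ≤ (n : ℝ) ^ (2 * cl)
  sg' : SG n β y V a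
  au : a ≤ A * ((n : ℝ) ^ (-sg) * y ^ 2)
  ap : H178.AP β s0 n y (2 * V)

/-- the main part -/
def LcFar (β b₁ b₀ d0 sg s0 k1 k2 ce cl κ ω c1 c4 : ℝ) : Prop := ∀ A : ℝ, 1 ≤ A →
  ∀ᶠ n : ℕ in atTop, ∀ y V s lam η a : ℝ, LcD β b₁ b₀ d0 sg s0 k1 k2 ce cl A n y V s lam η a →
    ∀ T : ℝ, TL c1 n y / 2 ≤ T → T ≤ 1 →
      T * (lawOf n β y V a s lam η).rr (Sn n (mL c1 c4 n y)) (1 - T) (uQ κ ω n y V) ≤ DL κ n y

/-- the near part -/
def LcNear (β b₁ b₀ d0 sg s0 k1 k2 ce cl κ c1 : ℝ) : Prop := ∀ A : ℝ, 1 ≤ A →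
  ∀ᶠ n : ℕ in atTop, ∀ y V s lam η a : ℝ, LcD β b₁ b₀ d0 sg s0 k1 k2 ce cl A n y V s lam η a →
    ∀ T : ℝ, DL κ n y / 2 ≤ T → T ≤ TL c1 n y →
      T * (lawOf n β y V a s lam η).rr Finset.univ (1 - T) (uP κ n y V) ≤ DL κ n y

variable {β b₁ b₀ d0 sg s0 s1 k1 k2 ce cl κ ω c1 c4 q : ℝ}

/-- small numbers on the window of LC -/
lemma LcF.small {A ε : ℝ} {n : ℕ} {y V : ℝ} (f : LcF β A ε b₁ b₀ d0 q κ ω c1 c4 s1 n y V) :
    (1 : ℝ) ≤ n ∧ y ≤ 1 / 2 ∧ V ≤ 1 ∧ y * β ≤ 1 ∧ (n : ℝ) ^ (-(1 / 6) + 1 / 20 : ℝ) ≤ y := by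
  obtain ⟨f1, f2, f3, f4, f5, f6, f7, f8, f9, f10, f11, f12⟩ := f.facts
  have hn := f.env.n0
  have hy := f.env.y0
  have hV := f.env.V0
  have hβ := f.β0
  have hL := f.env.L1
  have c1' := log_c 2 (by norm_num)
  have hx := f.ex
  have m1 : (2 * q) * Real.log n ≤ b₀ * Real.log n :=
    mul_le_mul_of_nonneg_right hx.b0 (by linarith)
  have m2 : b₀ * Real.log n ≤ b₁ * Real.log n :=
    mul_le_mul_of_nonneg_right hx.bb (by linarith)
  have m3 : b₁ * Real.log n ≤ 1 / 10 * Real.log n :=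
    mul_le_mul_of_nonneg_right hx.b1 (by linarith)
  have m4 : 0 ≤ d0 * Real.log n := mul_nonneg hx.d (by linarith)
  refine ⟨?_, ?_, ?_, ?_, ?_⟩
  · refine le_of_log one_pos hn ?_
    rw [Real.log_one]
    linarith
  · refine le_of_log (by positivity) (by positivity) ?_
    simp (disch := positivity) only [Real.log_div, Real.log_one]
    linarith
  · refine le_of_log (by positivity) (by positivity) ?_
    rw [Real.log_one]
    linarith
  · refine le_of_log (by positivity) (by positivity) ?_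
    simp (disch := positivity) only [Real.log_mul, Real.log_one]
    linarith
  · refine le_of_log (by positivity) (by positivity) ?_
    rw [Real.log_rpow hn]
    linarith

/-- the a priori structure on the window of LC -/
lemma lcD_par {A ε : ℝ} {n : ℕ} {y V s lam η a : ℝ}
    (f : LcF β A ε b₁ b₀ d0 q κ ω c1 c4 s1 n y V)
    (h : LcD β b₁ b₀ d0 sg s0 k1 k2 ce cl A n y V s lam η a) (hcl : 0 ≤ cl)
    (e1 : A * (n : ℝ) ^ (-k1) ≤ 1 / 2) (e2 : (n : ℝ) ^ (-ce) ≤ 1 / 3) (hk1 : 0 ≤ k1) :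
    H516.Par1 β s0 (1 / 20) n (V - s ^ 2) s lam η y V a ∧ 0 < V - s ^ 2 ∧ s ^ 2 ≤ y ^ 5 ∧
      y ^ 2 * β ^ 2 ≤ 4 ∧ 0 < lam := by
  obtain ⟨hn1, hy2, hV1, hyb, hyl⟩ := f.small
  have hn := f.env.n0
  have hy := f.env.y0
  have hV := f.env.V0
  have hβ := f.β0
  have hη := h.η0
  have hk : (n : ℝ) ^ (-k1) ≤ 1 := Real.rpow_le_one_of_one_le_of_nonpos hn1 (by linarith)
  have hy5 : 0 < y ^ 5 := by positivity
  have hs5 : s ^ 2 ≤ y ^ 5 := h.s2u.trans (mul_le_of_le_one_left hy5.le hk)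
  have hsV : s ^ 2 ≤ V / 2 := by
    refine h.s2u.trans ?_
    have k0 : 0 ≤ (n : ℝ) ^ (-k1) := by positivity
    calc (n : ℝ) ^ (-k1) * y ^ 5 ≤ (n : ℝ) ^ (-k1) * (A * V) :=
          mul_le_mul_of_nonneg_left h.Vl k0
      _ = (A * (n : ℝ) ^ (-k1)) * V := by ring
      _ ≤ 1 / 2 * V := mul_le_mul_of_nonneg_right e1 hV.le
      _ = V / 2 := by ring
  have hη3 : η ≤ 1 / 3 := h.η1.trans e2
  have hcl1 : (1 : ℝ) ≤ (n : ℝ) ^ cl := Real.one_le_rpow hn1 hcl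
  have hll : 1 ≤ y * (lam * η) := hcl1.trans h.ll
  have hlη0 : 0 < lam * η := by
    by_contra hcon
    push Not at hcon
    have := mul_nonpos_of_nonneg_of_nonpos hy.le hcon
    linarith
  have hlη : 1 ≤ lam * η := by
    have := mul_le_mul_of_nonneg_right (show y ≤ 1 by linarith) hlη0.le
    linarith
  have hl0 : 0 < lam := (pos_iff_pos_of_mul_pos hlη0).2 hη
  have hl1 : 1 ≤ lam := by
    have := mul_le_mul_of_nonneg_left (show η ≤ 1 by linarith) hl0.le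
    linarith
  refine ⟨⟨by linarith, by ring, hV1, h.s0', hl1, hη, hη3, hlη, hyl, by linarith, h.ap, h.sg'⟩,
    by linarith, hs5, ?_, hl0⟩
  have h0 : 0 ≤ y * β := by positivity
  calc y ^ 2 * β ^ 2 = (y * β) ^ 2 := by ring
    _ ≤ 1 ^ 2 := pow_le_pow_left₀ h0 hyb 2
    _ ≤ 4 := by norm_num

/-- **LC from the two zone bounds.** -/
theorem lcampL_of_zones (hβ : 0 < β) (hX : LcX b₁ b₀ d0 q κ ω c1 c4 s1) (hs0 : 0 ≤ s0)
    (hs01 : s0 < s1) (hk1 : 0 < k1) (hce : 0 < ce) (hcl : 0 ≤ cl) (hc : c1 + q ≤ 2 * b₀ + κ)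
    (hfar : LcFar β b₁ b₀ d0 sg s0 k1 k2 ce cl κ ω c1 c4)
    (hnear : LcNear β b₁ b₀ d0 sg s0 k1 k2 ce cl κ c1) :
    LCampL β b₁ b₀ d0 sg s0 k1 k2 ce cl := by
  intro A hA ε hε
  have hq := hX.q0
  filter_upwards [lcE_ev (b₁ := b₁) (b₀ := b₀) (d0 := d0)
      (10 * |Real.log β| + 10 * |Real.log A| + 10 * |Real.log ε| + 10000) hq hA,
    H412.U.q1g_ev (b := β) (e := 1 / 20) hβ (by norm_num) hs0 hs01, hfar A hA, hnear A hA,
    ev_log hk1 (Real.log (2 * A)), ev_log hce (Real.log 3)] with n g1 g2 g3 g4 g5 g6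
  intro y V s lam η a h1 h2 h3 h4 h5 h6 h7 h8 h9 h10 h11 h12 h13 h14
  have hD : LcD β b₁ b₀ d0 sg s0 k1 k2 ce cl A n y V s lam η a :=
    ⟨h1, h2, h3, h4, h5, h6, h7, h8, h9, h10, h11, h12, h13, h14⟩
  have f : LcF β A ε b₁ b₀ d0 q κ ω c1 c4 s1 n y V := ⟨g1 y V h1 h2 h3 h4, hX, hβ, hA, hε⟩
  obtain ⟨f1, f2, f3, f4, f5, f6, f7, f8, f9, f10, f11, f12⟩ := f.facts
  obtain ⟨m1, m2, m3, m4, m5, m6, m7, m8, m9⟩ := f.slack
  have hn := f.env.n0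
  have hy := f.env.y0
  have hV := f.env.V0
  have hA0 : 0 < A := by linarith
  have e1 : A * (n : ℝ) ^ (-k1) ≤ 1 / 2 := by
    refine le_of_log (by positivity) (by positivity) ?_
    rw [Real.log_mul (by norm_num) hA0.ne'] at g5
    simp (disch := positivity) only [Real.log_div, Real.log_mul, Real.log_rpow, Real.log_one]
    linarith
  have e2 : (n : ℝ) ^ (-ce) ≤ 1 / 3 := by
    refine le_of_log (by positivity) (by positivity) ?_
    simp (disch := positivity) only [Real.log_div, Real.log_rpow, Real.log_one]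
    linarith
  obtain ⟨hP, hvp, hs5, hyb, hl0⟩ := lcD_par f hD hcl e1 e2 hk1.le
  have hDp := f.DL_pos
  have hTp := f.TL_pos
  have c2' := log_c 2 (by norm_num)
  have hT1 : TL c1 n y ≤ 1 := by
    unfold TL
    refine le_of_log (by positivity) (by positivity) ?_
    simp (disch := positivity) only [Real.log_mul, Real.log_rpow, Real.log_pow, Real.log_one]
    push_cast
    linarith
  have hcL : (c1 + q) * Real.log n ≤ (2 * b₀ + κ) * Real.log n :=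
    mul_le_mul_of_nonneg_right hc (by linarith)
  have hDT : 2 * DL κ n y < TL c1 n y := by
    unfold DL TL
    refine lt_of_log (by positivity) (by positivity) ?_
    simp (disch := positivity) only [Real.log_mul, Real.log_rpow, Real.log_pow]
    push_cast
    linarith
  obtain ⟨N, hN1, hN2⟩ := exists_level (η := 1) one_pos hTp hT1
  obtain ⟨N', hM1, hM2⟩ := exists_level (η := 1) one_pos hDp (by linarith)
  have hgN := gg_pos (η := 1) zero_le_one N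
  have hgN' := gg_pos (η := 1) zero_le_one N'
  have hgg : gg 1 N' ≤ gg 1 N := by linarith
  have hNN : N ≤ N' := by
    by_contra hcon
    push Not at hcon
    have := gg_anti (η := 1) zero_le_one hcon.le
    linarith
  obtain ⟨p1, p2⟩ := uP_mem κ n hV hy
  obtain ⟨r1, r2, r3⟩ := f.uQ_mem
  obtain ⟨o1, o2⟩ := f.mL_le
  have hgN1 : gg 1 N ≤ 1 := gg_le_one zero_le_one N
  have hη0 : 0 ≤ η := hD.η0.le
  have hη3 : η ≤ 1 / 3 := hP.η3
  -- the a priori sizes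
  have hn' : 0 < n := by exact_mod_cast hn
  have z0 : (0 : ℝ) ∈ Icc (0 : ℝ) 1 := ⟨le_rfl, zero_le_one⟩
  have q0 := (g2 (V - s ^ 2) s lam η y V a hP hvp hyb 0 le_rfl one_pos (uQ κ ω n y V)
    ⟨r1, r2.trans p2⟩ 0 z0 (Sn n (mL c1 c4 n y))).2.1
  rw [H698.ffg_zero (L := ⟨n, β, V - s ^ 2, s, lam, η, cc n β s a, y⟩) hl0 hη0 hvp hD.s0' le_rfl
    zero_le_one r1 (r2.trans p2)] at q0
  have q1 := g2 (V - s ^ 2) s lam η y V a hP hvp hyb (1 - gg 1 N) (by linarith) (by linarith)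
    (uP κ n y V) ⟨by linarith, p2⟩ 0 z0 Finset.univ
  obtain ⟨q1, q2, -⟩ := q1
  rw [H698.ffg_zero (L := ⟨n, β, V - s ^ 2, s, lam, η, cc n β s a, y⟩) hl0 hη0 hvp hD.s0'
    (by linarith) (by linarith) (by linarith) p2] at q2
  have q1' : (lawOf n β y V a s lam η).rr Finset.univ (1 - gg 1 N) (uP κ n y V) ≤
      12 * ((n : ℝ) ^ s1 * y ^ 4) / (β ^ 2 * (1 - (1 - gg 1 N))) := by
    refine le_trans (le_of_eq ?_) q1
    unfold Law.rrg Law.rr
    rw [H698.ppg_zero (L := ⟨n, β, V - s ^ 2, s, lam, η, cc n β s a, y⟩) hl0 hη0 hvp hD.s0'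
      (by linarith) (by linarith) (by linarith) p2]
    rfl
  rw [sub_sub_cancel] at q1' q2
  rw [sub_zero, mul_one] at q0
  -- the path
  have hk := H197.kup (lawOf n β y V a s lam η) hl0 hη0 hvp hy hβ.ne' hn' (h := 1)
    (u := uQ κ ω n y V) (u' := uP κ n y V)
    (q0 := √(12 * ((n : ℝ) ^ s1 * y ^ 4) / β ^ 2))
    (q1 := √(12 * ((n : ℝ) ^ s1 * y ^ 4) / (β ^ 2 * gg 1 N)))
    (C1 := 12 * ((n : ℝ) ^ s1 * y ^ 4) / (β ^ 2 * gg 1 N)) (X := DL κ n y) (N := N) (N' := N')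
    one_pos le_rfl r1 r2 p2 hNN (Sn n (mL c1 c4 n y)) hDp.le q0 q2 q1'
    (fun T hT => g4 y V s lam η a hD T (by linarith [hT.1]) (hT.2.trans hN1))
  have hs := H197.near_sum (η := 1) (X := DL κ n y)
    (r := fun T => (lawOf n β y V a s lam η).rr (Sn n (mL c1 c4 n y)) (1 - T) (uQ κ ω n y V))
    one_pos le_rfl (Nat.zero_le N) hDp.le (fun T hT => g3 y V s lam η a hD T
      (by linarith [hT.1]) (by rw [gg_zero] at hT; exact hT.2))
  rw [gg_zero] at hs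
  have hcard : ((n : ℝ) - ((Sn n (mL c1 c4 n y)).card : ℝ)) / n = (mL c1 c4 n y : ℝ) / n := by
    rw [H698.card_Sn o2, sub_sub_cancel]
  have hk' : (lawOf n β y V a s lam η).KA ≤ (n : ℝ) * y ^ 2 * β ^ 2 / 4 *
      (∑ l ∈ Finset.range N, (gg 1 l - gg 1 (l + 1)) *
        (lawOf n β y V a s lam η).rr (Sn n (mL c1 c4 n y)) (1 - gg 1 (l + 1)) (uQ κ ω n y V) +
      (2 / β ^ 2 * (V - s ^ 2) * (uQ κ ω n y V * √(12 * ((n : ℝ) ^ s1 * y ^ 4) / β ^ 2) +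
        (((n : ℝ) - ((Sn n (mL c1 c4 n y)).card : ℝ)) / n + (uP κ n y V - uQ κ ω n y V)) *
          √(12 * ((n : ℝ) ^ s1 * y ^ 4) / (β ^ 2 * gg 1 N)) + (1 - uP κ n y V)) +
        2 / β ^ 2 * (s ^ 2 * (1 + η) ^ 2) +
        2 * (((n : ℝ) - ((Sn n (mL c1 c4 n y)).card : ℝ)) / n) *
          (12 * ((n : ℝ) ^ s1 * y ^ 4) / (β ^ 2 * gg 1 N)) +
        2 * DL κ n y * Real.log (gg 1 N / gg 1 N') + gg 1 N')) := hk
  rw [hcard] at hk'
  have ht := f.total (g := gg 1 N) (g' := gg 1 N') (vp := V - s ^ 2) (u := uQ κ ω n y V)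
    (s2 := s ^ 2) (η := η) (δ := (mL c1 c4 n y : ℝ) / n) (D1 := uP κ n y V - uQ κ ω n y V)
    (U1 := 1 - uP κ n y V) (by linarith) hgN1 hgN' (by linarith) hM1 hgg
    (by linarith [sq_nonneg s]) (r2.trans p2) r1 hs5 hη0 hη3 (by positivity) o1 (by linarith) r3
    (by linarith) (uP_V κ n hV hy)
  show (lawOf n β y V a s lam η).KA ≤ ε * (n * y ^ 6)
  refine hk'.trans ?_
  have hA' : 0 ≤ (n : ℝ) * y ^ 2 := by positivity
  have ht2 := mul_le_mul_of_nonneg_left ht hA'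
  have hs2 := mul_le_mul_of_nonneg_left hs (show 0 ≤ (n : ℝ) * y ^ 2 * β ^ 2 / 4 by positivity)
  have e3 : (n : ℝ) * y ^ 2 * (ε * y ^ 4) = ε * (n * y ^ 6) := by ring
  rw [e3] at ht2
  refine le_trans ?_ ht2
  have hr : Finset.range N = Finset.Ico 0 N := (Nat.Ico_zero_eq_range N).symm
  rw [hr, mul_add]
  refine le_trans (add_le_add_left hs2 _) (le_of_eq ?_)
  ring

end Vale.Agent.P146.H470
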