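import Vale.Agent.P146.H470.LcB
import Vale.Agent.P146.H75.LcW
import Vale.Agent.P146.H698.FoDef

/-!
# P146: the weak LC from the far bound and the near bracket

`lcamp_of_far`: `H75.W.LCampW` from `LcFarW` (`T rr(T) ≤ n^(-κ) y⁴` on `[T1 / 2, 1]`, with hidden
sites), the path with two exponents at its end (`PathV`) and `LcBrW` (the bracket of this path is
at most `ε n y⁶`).
-/

open MeasureTheory ProbabilityTheory Filter Set

namespace Vale.Agent.P146.H470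

open Vale.Agent.P146.H418 Vale.Agent.P146.H529 Vale.Agent.P146.H75
open Vale.Agent.P146.H9 (Phn)
open Vale.Agent.P146.H178 (AP)

/-- the main part of the amplitude law of the weak LC -/
def LcFarW (β b₁ b₀ d0 s s0 k ce cl κ ω c1 c4 : ℝ) : Prop := ∀ A : ℝ, 1 ≤ A →
  ∀ᶠ n : ℕ in atTop, ∀ y : ℝ, (n : ℝ) ^ (-b₁) ≤ y → y ≤ 2 * (n : ℝ) ^ (-b₀) →
    ∀ V : ℝ, y ^ 5 ≤ A * V → V ≤ A * ((n : ℝ) ^ (-d0) * y ^ 3) → AP β s0 n y (2 * V) →
    ∀ a : ℝ, SG n β y V a → a ≤ A * ((n : ℝ) ^ (-s) * y ^ 2) →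
    ∀ T : ℝ, TL c1 n y / 2 ≤ T → T ≤ 1 →
      T * (lawOf n β y V a (sL k n y) (lamL cl ce n y) (etaL ce n)).rr (Sn n (mL c1 c4 n y))
        (1 - T) (uQ κ ω n y V) ≤ DL κ n y

/-- the bracket of the near part -/
def LcBrW (β b₁ b₀ d0 s0 k ce c1 : ℝ) : Prop := ∀ ε : ℝ, 0 < ε → ∃ κ : ℝ, 0 < κ ∧
  ∀ A : ℝ, 1 ≤ A → ∀ᶠ n : ℕ in atTop, ∀ y : ℝ, (n : ℝ) ^ (-b₁) ≤ y → y ≤ 2 * (n : ℝ) ^ (-b₀) →
    ∀ V : ℝ, y ^ 5 ≤ A * V → V ≤ A * ((n : ℝ) ^ (-d0) * y ^ 3) → AP β s0 n y (2 * V) →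
    n * V / (2 * β) ≤ Phn n β y V - Phn n β y 0 + κ * (n * y ^ 5) →
    ∀ T : ℝ, 0 < T → T ≤ TL c1 n y → ∃ m : ℝ, y < m ∧ m ≤ 1 ∧
      y * m / (m - y) * (H698.FO.PsiV n β (V - sL k n y ^ 2) y m T -
        Phn n β y (V - sL k n y ^ 2) + n * (sL k n y ^ 2 * (1 + etaL ce n) ^ 2) / 2) ≤
        ε * (n * y ^ 6)

/-- the path with two exponents at its end -/
def PathV : Prop := ∀ L : Law, 0 < L.lam → 0 ≤ L.η → 0 < L.vp → 0 < L.x → 0 < L.n →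
  ∀ (m : ℝ), L.x < m → m ≤ 1 → ∀ u : ℝ, 0 ≤ u → u ≤ 1 → ∀ (N : ℕ), 1 ≤ N →
  ∀ S : Finset (Fin L.n),
    L.KA ≤ L.x ^ 2 / 2 * (u * L.vp) * L.ff S 0 u +
      L.n * L.x ^ 2 * L.b ^ 2 / 4 * ∑ l ∈ Finset.range N, (gg 1 l - gg 1 (l + 1)) *
        L.rr S (1 - gg 1 (l + 1)) u +
      L.x ^ 2 / 2 * (L.b ^ 2 / L.n * (2 * (L.n - S.card) / L.n) *
          L.pp Finset.univ (1 - gg 1 N) 1 +
        L.vp * ((L.n - S.card) / L.n) * L.ff Finset.univ (1 - gg 1 N) 1 +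
        (1 - u) * L.vp * L.ff Finset.univ (1 - gg 1 N) 1) +
      L.x * m / (m - L.x) * (H698.FO.PsiV L.n L.b L.vp L.x m (gg 1 N) - Phn L.n L.b L.x L.vp +
        L.n * (L.s ^ 2 * (1 + L.η) ^ 2) / 2)

variable {β b₁ b₀ d0 sg s0 s1 k ce cl κ ω c1 c4 q : ℝ} {A ε : ℝ} {n : ℕ} {y V : ℝ}

/-- the hidden share of the plain field -/
lemma LcF.t10 (h : LcF β A ε b₁ b₀ d0 q κ ω c1 c4 s1 n y V) (hc : c1 / 2 + s1 / 2 + q ≤ b₀)
    {vp g U1 : ℝ} (hvp : vp ≤ V) (hg : TL c1 n y ≤ 2 * g) (hU0 : 0 ≤ U1)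
    (hU1 : U1 * V ≤ DL κ n y) :
    1 / 2 * (vp * (U1 * √(12 * ((n : ℝ) ^ s1 * y ^ 4) / (β ^ 2 * g)))) ≤ ε * y ^ 4 / 10 := by
  obtain ⟨f1, f2, f3, f4, f5, f6, f7, f8, f9, f10, f11, f12⟩ := h.facts
  obtain ⟨m1, m2, m3, m4, m5, m6, m7, m8, m9⟩ := h.slack
  have hn := h.env.n0
  have hy := h.env.y0
  have hV := h.env.V0
  have hβ := h.β0
  have hε := h.ε0
  have hcL : (c1 / 2 + s1 / 2 + q) * Real.log n ≤ b₀ * Real.log n :=
    mul_le_mul_of_nonneg_right hc (by linarith)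
  have a3 := log_c 10 (by norm_num)
  have a5 := log_c 24 (by norm_num)
  have a8 := Real.log_nonneg (show (1 : ℝ) ≤ 2 by norm_num)
  have hCs := Real.sqrt_le_sqrt (h.hC hg)
  have h1 : 1 / 2 * (vp * (U1 * √(12 * ((n : ℝ) ^ s1 * y ^ 4) / (β ^ 2 * g)))) ≤
      1 / 2 * (V * (U1 * √(24 * ((n : ℝ) ^ s1 * y ^ 4) / (β ^ 2 * TL c1 n y)))) := by gcongr
  have h2 : 1 / 2 * (V * (U1 * √(24 * ((n : ℝ) ^ s1 * y ^ 4) / (β ^ 2 * TL c1 n y)))) ≤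
      1 / 2 * (DL κ n y * √(24 * ((n : ℝ) ^ s1 * y ^ 4) / (β ^ 2 * TL c1 n y))) := by
    have h3 := mul_le_mul_of_nonneg_right hU1
      (Real.sqrt_nonneg (24 * ((n : ℝ) ^ s1 * y ^ 4) / (β ^ 2 * TL c1 n y)))
    nlinarith
  refine (h1.trans h2).trans ?_
  unfold TL DL
  refine le_of_log (by positivity) (by positivity) ?_
  simp (disch := positivity) only [Real.log_div, Real.log_mul, Real.log_rpow, Real.log_pow,
    Real.log_one, Real.log_sqrt]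
  push_cast
  linarith

/-- **the sum of the errors of the path with two exponents** -/
lemma LcF.total2 (h : LcF β A ε b₁ b₀ d0 q κ ω c1 c4 s1 n y V)
    (hc : c1 / 2 + s1 / 2 + q ≤ b₀) {g vp u : ℝ} (hg : TL c1 n y ≤ 2 * g) (hg0 : 0 < g)
    (hDg : DL κ n y ≤ 2 * g) (hvp : vp ≤ V) (hu : u ≤ 1) (hu0 : 0 ≤ u)
    {δ : ℝ} (hδ0 : 0 ≤ δ) (hδ : δ ≤ 4 * ((n : ℝ) ^ (-(c1 + c4)) * y ^ 2)) {D1 : ℝ} (hD0 : 0 ≤ D1)
    (hD1 : D1 ≤ (n : ℝ) ^ (-ω)) {U1 : ℝ} (hU0 : 0 ≤ U1) (hU1 : U1 * V ≤ DL κ n y) :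
    β ^ 2 / 4 * (2 * DL κ n y * Real.log (1 / g) +
      (2 / β ^ 2 * vp * (u * √(12 * ((n : ℝ) ^ s1 * y ^ 4) / β ^ 2) +
        (δ + (D1 + U1)) * √(12 * ((n : ℝ) ^ s1 * y ^ 4) / (β ^ 2 * g))) +
        2 * δ * (12 * ((n : ℝ) ^ s1 * y ^ 4) / (β ^ 2 * g)))) ≤ ε * y ^ 4 := by
  have hy := h.env.y0
  have hβ := h.β0
  have hε := h.ε0
  have lg1 := h.lgg hg0 hDg
  have t1 := h.t1 lg1
  have t6 := h.t6 hvp hu0 hu
  have t7 := h.t7 hvp hg hδ0 hδ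
  have t8 := h.t8 hvp hg hD0 hD1
  have t9 := h.t9 hg hδ0 hδ
  have t10 := h.t10 hc hvp hg hU0 hU1
  have e1 : β ^ 2 / 4 * (2 * DL κ n y * Real.log (1 / g) +
      (2 / β ^ 2 * vp * (u * √(12 * ((n : ℝ) ^ s1 * y ^ 4) / β ^ 2) +
        (δ + (D1 + U1)) * √(12 * ((n : ℝ) ^ s1 * y ^ 4) / (β ^ 2 * g))) +
        2 * δ * (12 * ((n : ℝ) ^ s1 * y ^ 4) / (β ^ 2 * g)))) =
      β ^ 2 / 4 * (2 * DL κ n y * Real.log (1 / g)) +
      1 / 2 * (vp * (u * √(12 * ((n : ℝ) ^ s1 * y ^ 4) / β ^ 2))) +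
      1 / 2 * (vp * (δ * √(12 * ((n : ℝ) ^ s1 * y ^ 4) / (β ^ 2 * g)))) +
      1 / 2 * (vp * (D1 * √(12 * ((n : ℝ) ^ s1 * y ^ 4) / (β ^ 2 * g)))) +
      1 / 2 * (vp * (U1 * √(12 * ((n : ℝ) ^ s1 * y ^ 4) / (β ^ 2 * g)))) +
      β ^ 2 / 4 * (2 * δ * (12 * ((n : ℝ) ^ s1 * y ^ 4) / (β ^ 2 * g))) := by
    generalize √(12 * ((n : ℝ) ^ s1 * y ^ 4) / β ^ 2) = r1
    generalize √(12 * ((n : ℝ) ^ s1 * y ^ 4) / (β ^ 2 * g)) = r2
    generalize 12 * ((n : ℝ) ^ s1 * y ^ 4) / (β ^ 2 * g) = r3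
    have hβ2 : β ≠ 0 := hβ.ne'
    field_simp
    ring
  rw [e1]
  have : 0 < ε * y ^ 4 := by positivity
  linarith

/-- the path in the normalised form -/
lemma path_norm (L : Law) (hb : L.b ≠ 0) (hn : 0 < L.n) {u q0 q1 C1 Z B S0 : ℝ} {N : ℕ}
    (S : Finset (Fin L.n)) (hv : 0 < L.vp) (h0 : 0 ≤ u) (h1 : u ≤ 1)
    (hq0 : L.ff S 0 u ≤ L.n * q0) (hq1 : L.ff Finset.univ (1 - gg 1 N) 1 ≤ L.n * q1)
    (hC1 : L.rr Finset.univ (1 - gg 1 N) 1 ≤ C1)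
    (hS : ∑ l ∈ Finset.range N, (gg 1 l - gg 1 (l + 1)) * L.rr S (1 - gg 1 (l + 1)) u ≤ S0)
    (hZ : Z ≤ L.x ^ 2 / 2 * (u * L.vp) * L.ff S 0 u +
      L.n * L.x ^ 2 * L.b ^ 2 / 4 * ∑ l ∈ Finset.range N, (gg 1 l - gg 1 (l + 1)) *
        L.rr S (1 - gg 1 (l + 1)) u +
      L.x ^ 2 / 2 * (L.b ^ 2 / L.n * (2 * (L.n - S.card) / L.n) *
          L.pp Finset.univ (1 - gg 1 N) 1 +
        L.vp * ((L.n - S.card) / L.n) * L.ff Finset.univ (1 - gg 1 N) 1 +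
        (1 - u) * L.vp * L.ff Finset.univ (1 - gg 1 N) 1) + B) :
    Z ≤ L.n * L.x ^ 2 * (L.b ^ 2 / 4 * (S0 +
      (2 / L.b ^ 2 * L.vp * (u * q0 + (((L.n : ℝ) - S.card) / L.n + (1 - u)) * q1) +
        2 * (((L.n : ℝ) - S.card) / L.n) * C1))) + B := by
  have hn' : (0 : ℝ) < L.n := by exact_mod_cast hn
  have hb2 : 0 < L.b ^ 2 := by positivity
  have cN : 0 ≤ ((L.n : ℝ) - S.card) / L.n := by
    have := Finset.card_le_univ S
    rw [Fintype.card_fin] at this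
    exact div_nonneg (sub_nonneg.2 (by exact_mod_cast this)) hn'.le
  refine hZ.trans ?_
  have hc1 : ((L.n : ℝ) - S.card) = L.n * (((L.n : ℝ) - S.card) / L.n) := by
    field_simp
  set δ := ((L.n : ℝ) - S.card) / L.n with hδ
  set A := (L.n : ℝ) * L.x ^ 2 * (L.b ^ 2 / 4) with hA
  have hA0 : 0 ≤ A := by positivity
  set Sm1 := ∑ l ∈ Finset.range N, (gg 1 l - gg 1 (l + 1)) * L.rr S (1 - gg 1 (l + 1)) u
  set F1 := L.ff Finset.univ (1 - gg 1 N) 1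
  set F0 := L.ff S 0 u
  have hP1 : 2 * L.pp Finset.univ (1 - gg 1 N) 1 ≤ (L.n : ℝ) ^ 2 * C1 := by
    have h3 := hC1
    unfold Law.rr at h3
    rw [div_le_iff₀ (by positivity)] at h3
    linarith
  set P1 := L.pp Finset.univ (1 - gg 1 N) 1
  have hF0 : L.x ^ 2 / 2 * (u * L.vp) * F0 ≤ A * (2 / L.b ^ 2 * L.vp * (u * q0)) := by
    have : A * (2 / L.b ^ 2 * L.vp * (u * q0)) = L.x ^ 2 / 2 * (u * L.vp) * (L.n * q0) := by
      rw [hA]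
      field_simp
      ring
    rw [this]
    exact mul_le_mul_of_nonneg_left hq0 (by positivity)
  have hR : L.x ^ 2 / 2 * (L.b ^ 2 / L.n * (2 * ((L.n : ℝ) - S.card) / L.n) * P1 +
      L.vp * δ * F1 + (1 - u) * L.vp * F1) ≤
      A * (2 / L.b ^ 2 * L.vp * ((δ + (1 - u)) * q1) + 2 * δ * C1) := by
    have e1 : A * (2 / L.b ^ 2 * L.vp * ((δ + (1 - u)) * q1) + 2 * δ * C1) =
        L.x ^ 2 / 2 * (L.b ^ 2 * δ * (L.n * C1) + L.vp * δ * (L.n * q1) +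
          (1 - u) * L.vp * (L.n * q1)) := by
      rw [hA]
      field_simp
      ring
    rw [e1, hc1]
    refine mul_le_mul_of_nonneg_left ?_ (by positivity)
    have e2 : L.b ^ 2 / L.n * (2 * (L.n * δ) / L.n) * P1 ≤ L.b ^ 2 * δ * (L.n * C1) := by
      have e3 : L.b ^ 2 / L.n * (2 * (L.n * δ) / L.n) * P1 = L.b ^ 2 * δ / L.n * (2 * P1) := by
        field_simp
      have e4 : L.b ^ 2 * δ * (L.n * C1) = L.b ^ 2 * δ / L.n * (L.n ^ 2 * C1) := by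
        field_simp
      rw [e3, e4]
      exact mul_le_mul_of_nonneg_left hP1 (by positivity)
    have e5 : L.vp * δ * F1 ≤ L.vp * δ * (L.n * q1) :=
      mul_le_mul_of_nonneg_left hq1 (by positivity)
    have e6 : (1 - u) * L.vp * F1 ≤ (1 - u) * L.vp * (L.n * q1) :=
      mul_le_mul_of_nonneg_left hq1 (mul_nonneg (by linarith) hv.le)
    linarith
  have hS2 : L.n * L.x ^ 2 * L.b ^ 2 / 4 * Sm1 ≤ A * S0 := by
    have : (L.n : ℝ) * L.x ^ 2 * L.b ^ 2 / 4 = A := by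
      rw [hA]
      ring
    rw [this]
    exact mul_le_mul_of_nonneg_left hS hA0
  have e7 : (L.n : ℝ) * L.x ^ 2 * (L.b ^ 2 / 4 * (S0 +
      (2 / L.b ^ 2 * L.vp * (u * q0 + (δ + (1 - u)) * q1) + 2 * δ * C1))) =
      A * S0 + A * (2 / L.b ^ 2 * L.vp * (u * q0)) +
        A * (2 / L.b ^ 2 * L.vp * ((δ + (1 - u)) * q1) + 2 * δ * C1) := by
    rw [hA]
    ring
  rw [e7]
  linarith

/-- the data of LC in the letters of the weak LC -/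
lemma lcD_of (hn1 : (1 : ℝ) ≤ n) {a : ℝ} (hcl : 0 ≤ cl) (hy0 : 0 < y) (hV : 0 < V) (hA : 1 ≤ A)
    (h1 : (n : ℝ) ^ (-b₁) ≤ y) (h2 : y ≤ 2 * (n : ℝ) ^ (-b₀)) (h3 : y ^ 5 ≤ A * V)
    (h4 : V ≤ A * ((n : ℝ) ^ (-d0) * y ^ 3)) (h5 : AP β s0 n y (2 * V)) (h6 : SG n β y V a)
    (h7 : a ≤ A * ((n : ℝ) ^ (-sg) * y ^ 2)) :
    LcD β b₁ b₀ d0 sg s0 k k ce cl (2 * A) n y V (sL k n y) (lamL cl ce n y) (etaL ce n) a := by
  have hn0 : (0 : ℝ) < n := by linarith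
  have hs2 : sL k n y ^ 2 = (n : ℝ) ^ (-k) * y ^ 5 := by
    unfold sL
    rw [Real.sq_sqrt (by positivity)]
  have hle : lamL cl ce n y * etaL ce n = (n : ℝ) ^ cl / y := by
    unfold lamL etaL
    rw [div_mul_eq_mul_div, ← Real.rpow_add hn0, add_neg_cancel_right]
  have hyle : y * (lamL cl ce n y * etaL ce n) = (n : ℝ) ^ cl := by
    rw [hle]
    field_simp
  refine ⟨?_, ?_, ?_, ?_, Real.sqrt_pos.2 (by positivity), hs2.ge, hs2.le,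
    Real.rpow_pos_of_pos hn0 _, le_rfl, hyle.ge, ?_, h6, ?_, h5⟩
  · refine h1.trans ?_
    nlinarith
  · refine h2.trans ?_
    have : 0 ≤ (n : ℝ) ^ (-b₀) := by positivity
    nlinarith
  · refine h3.trans ?_
    nlinarith
  · refine h4.trans ?_
    have : 0 ≤ (n : ℝ) ^ (-d0) * y ^ 3 := by positivity
    nlinarith
  · rw [hyle]
    exact Real.rpow_le_rpow_of_exponent_le hn1 (by linarith)
  · refine h7.trans ?_
    have : 0 ≤ (n : ℝ) ^ (-sg) * y ^ 2 := by positivity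
    nlinarith

/-- **The weak LC from the far bound, the path with two exponents and the near bracket.** -/
theorem lcamp_of_path (hβ : 0 < β) (hX : LcX b₁ b₀ d0 q κ ω c1 c4 s1) (hs0 : 0 ≤ s0)
    (hs01 : s0 < s1) (hk : 0 < k) (hce : 0 < ce) (hcl : 0 ≤ cl) (hc : c1 + q ≤ 2 * b₀ + κ)
    (hc2 : c1 / 2 + s1 / 2 + q ≤ b₀) (hpath : PathV)
    (hfar : LcFarW β b₁ b₀ d0 sg s0 k ce cl κ ω c1 c4) (hbr : LcBrW β b₁ b₀ d0 s0 k ce c1) :
    W.LCampW β b₁ b₀ d0 sg s0 k ce cl := by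
  intro ε hε
  obtain ⟨κ', hκ', hbr⟩ := hbr (ε / 2) (by positivity)
  refine ⟨κ', hκ', fun A hA => ?_⟩
  have hq := hX.q0
  have hA0 : 0 < A := by linarith
  have hA2 : 1 ≤ 2 * A := by linarith
  filter_upwards [lcE_ev (b₁ := b₁) (b₀ := b₀) (d0 := d0)
      (10 * |Real.log β| + 10 * |Real.log (2 * A)| + 10 * |Real.log (ε / 2)| + 10000) hq hA2,
    H412.U.q1g_ev (b := β) (e := 1 / 20) hβ (by norm_num) hs0 hs01, hfar A hA, hbr A hA,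
    ev_log hk (Real.log (2 * (2 * A))), ev_log hce (Real.log 3), eventually_ge_atTop 1] with
    n g1 g2 g3 g4 g5 g6 g7
  intro y h1 h2 V h3 h4 h5 hresp a h6 h7
  have hn1 : (1 : ℝ) ≤ n := by exact_mod_cast g7
  have hn0 : (0 : ℝ) < n := by linarith
  have hy0 : 0 < y := lt_of_lt_of_le (Real.rpow_pos_of_pos hn0 _) h1
  have hV0 : 0 < V := by
    have : 0 < A * V := lt_of_lt_of_le (by positivity) h3
    exact (pos_iff_pos_of_mul_pos this).1 hA0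
  have hD := lcD_of (k := k) (ce := ce) hn1 hcl hy0 hV0 hA h1 h2 h3 h4 h5 h6 h7
  have f : LcF β (2 * A) (ε / 2) b₁ b₀ d0 q κ ω c1 c4 s1 n y V :=
    ⟨g1 y V hD.yl hD.yu hD.Vl hD.Vu, hX, hβ, hA2, by positivity⟩
  obtain ⟨f1, f2, f3, f4, f5, f6, f7, f8, f9, f10, f11, f12⟩ := f.facts
  obtain ⟨m1, m2, m3, m4, m5, m6, m7, m8, m9⟩ := f.slack
  have hn := f.env.n0
  have hy := f.env.y0
  have hV := f.env.V0
  have e1 : 2 * A * (n : ℝ) ^ (-k) ≤ 1 / 2 := by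
    refine le_of_log (by positivity) (by positivity) ?_
    rw [Real.log_mul (by norm_num) (by positivity)] at g5
    rw [Real.log_mul (by positivity) (by positivity)]
    simp (disch := positivity) only [Real.log_div, Real.log_rpow, Real.log_one]
    linarith
  have e2 : (n : ℝ) ^ (-ce) ≤ 1 / 3 := by
    refine le_of_log (by positivity) (by positivity) ?_
    simp (disch := positivity) only [Real.log_div, Real.log_rpow, Real.log_one]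
    linarith
  obtain ⟨hP, hvp, hs5, hyb, hl0⟩ := lcD_par f hD hcl e1 e2 hk.le
  have hDp := f.DL_pos
  have hTp := f.TL_pos
  have c2' := log_c 2 (by norm_num)
  have hT1 : TL c1 n y < 1 := by
    unfold TL
    refine lt_of_log (by positivity) (by positivity) ?_
    simp (disch := positivity) only [Real.log_mul, Real.log_rpow, Real.log_pow, Real.log_one]
    push_cast
    linarith
  have hcL : (c1 + q) * Real.log n ≤ (2 * b₀ + κ) * Real.log n :=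
    mul_le_mul_of_nonneg_right hc (by linarith)
  have hDT : DL κ n y < TL c1 n y := by
    unfold DL TL
    refine lt_of_log (by positivity) (by positivity) ?_
    simp (disch := positivity) only [Real.log_mul, Real.log_rpow, Real.log_pow]
    push_cast
    linarith
  obtain ⟨N, hN1, hN2⟩ := exists_level (η := 1) one_pos hTp hT1.le
  have hgN := gg_pos (η := 1) zero_le_one N
  have hNp : 1 ≤ N := by
    by_contra hcon
    have hN0 : N = 0 := by omega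
    rw [hN0, gg_zero] at hN1
    linarith
  obtain ⟨p1, p2⟩ := uP_mem κ n hV hy
  obtain ⟨r1, r2, r3⟩ := f.uQ_mem
  obtain ⟨o1, o2⟩ := f.mL_le
  have hgN1 : gg 1 N ≤ 1 := gg_le_one zero_le_one N
  have hη0 : 0 ≤ etaL ce n := hD.η0.le
  have hη3 : etaL ce n ≤ 1 / 3 := hP.η3
  -- the a priori sizes
  have hn' : 0 < n := by exact_mod_cast hn
  have z0 : (0 : ℝ) ∈ Icc (0 : ℝ) 1 := ⟨le_rfl, zero_le_one⟩
  have q0 := (g2 (V - sL k n y ^ 2) (sL k n y) (lamL cl ce n y) (etaL ce n) y V a hP hvp hyb 0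
    le_rfl one_pos (uQ κ ω n y V) ⟨r1, r2.trans p2⟩ 0 z0 (Sn n (mL c1 c4 n y))).2.1
  rw [H698.ffg_zero (L := ⟨n, β, V - sL k n y ^ 2, sL k n y, lamL cl ce n y, etaL ce n,
    cc n β (sL k n y) a, y⟩) hl0 hη0 hvp hD.s0' le_rfl zero_le_one r1 (r2.trans p2)] at q0
  have q1 := g2 (V - sL k n y ^ 2) (sL k n y) (lamL cl ce n y) (etaL ce n) y V a hP hvp hyb
    (1 - gg 1 N) (by linarith) (by linarith) 1 ⟨zero_le_one, le_rfl⟩ 0 z0 Finset.univ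
  obtain ⟨q1, q2, -⟩ := q1
  rw [H698.ffg_zero (L := ⟨n, β, V - sL k n y ^ 2, sL k n y, lamL cl ce n y, etaL ce n,
    cc n β (sL k n y) a, y⟩) hl0 hη0 hvp hD.s0'
    (by linarith) (by linarith) zero_le_one le_rfl] at q2
  have q1' : (lawOf n β y V a (sL k n y) (lamL cl ce n y) (etaL ce n)).rr Finset.univ
      (1 - gg 1 N) 1 ≤ 12 * ((n : ℝ) ^ s1 * y ^ 4) / (β ^ 2 * (1 - (1 - gg 1 N))) := by
    refine le_trans (le_of_eq ?_) q1
    unfold Law.rrg Law.rr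
    rw [H698.ppg_zero (L := ⟨n, β, V - sL k n y ^ 2, sL k n y, lamL cl ce n y, etaL ce n,
      cc n β (sL k n y) a, y⟩) hl0 hη0 hvp hD.s0' (by linarith) (by linarith) zero_le_one le_rfl]
    rfl
  rw [sub_sub_cancel] at q1' q2
  rw [sub_zero, mul_one] at q0
  -- the level sum
  have hs := H197.near_sum (η := 1) (X := DL κ n y)
    (r := fun T => (lawOf n β y V a (sL k n y) (lamL cl ce n y) (etaL ce n)).rr
      (Sn n (mL c1 c4 n y)) (1 - T) (uQ κ ω n y V))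
    one_pos le_rfl (Nat.zero_le N) hDp.le (fun T hT => g3 y h1 h2 V h3 h4 h5 a h6 h7 T
      (by linarith [hT.1]) (by rw [gg_zero] at hT; exact hT.2))
  rw [gg_zero, Nat.Ico_zero_eq_range] at hs
  -- the bracket
  obtain ⟨m, hm1, hm2, hm3⟩ := g4 y h1 h2 V h3 h4 h5 hresp (gg 1 N) hgN hN1
  -- the path
  have hk1 := hpath (lawOf n β y V a (sL k n y) (lamL cl ce n y) (etaL ce n)) hl0 hη0 hvp hy hn' m
    hm1 hm2 (uQ κ ω n y V) r1 (r2.trans p2) N hNp (Sn n (mL c1 c4 n y))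
  have hk2 := path_norm (lawOf n β y V a (sL k n y) (lamL cl ce n y) (etaL ce n)) hβ.ne' hn'
    (Sn n (mL c1 c4 n y)) hvp r1 (r2.trans p2) q0 q2 q1' hs hk1
  have hcard : ((n : ℝ) - ((Sn n (mL c1 c4 n y)).card : ℝ)) / n = (mL c1 c4 n y : ℝ) / n := by
    rw [H698.card_Sn o2, sub_sub_cancel]
  have hk3 : (lawOf n β y V a (sL k n y) (lamL cl ce n y) (etaL ce n)).KA ≤
      (n : ℝ) * y ^ 2 * (β ^ 2 / 4 * (2 * DL κ n y * Real.log (1 / gg 1 N) +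
      (2 / β ^ 2 * (V - sL k n y ^ 2) * (uQ κ ω n y V * √(12 * ((n : ℝ) ^ s1 * y ^ 4) / β ^ 2) +
        (((n : ℝ) - ((Sn n (mL c1 c4 n y)).card : ℝ)) / n + (1 - uQ κ ω n y V)) *
          √(12 * ((n : ℝ) ^ s1 * y ^ 4) / (β ^ 2 * gg 1 N))) +
        2 * (((n : ℝ) - ((Sn n (mL c1 c4 n y)).card : ℝ)) / n) *
          (12 * ((n : ℝ) ^ s1 * y ^ 4) / (β ^ 2 * gg 1 N))))) +
      y * m / (m - y) * (H698.FO.PsiV n β (V - sL k n y ^ 2) y m (gg 1 N) -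
        Phn n β y (V - sL k n y ^ 2) + n * (sL k n y ^ 2 * (1 + etaL ce n) ^ 2) / 2) := hk2
  rw [hcard] at hk3
  have ht := f.total2 hc2 (g := gg 1 N) (vp := V - sL k n y ^ 2) (u := uQ κ ω n y V)
    (δ := (mL c1 c4 n y : ℝ) / n) (D1 := uP κ n y V - uQ κ ω n y V) (U1 := 1 - uP κ n y V)
    (by linarith) hgN (by linarith) (by linarith [sq_nonneg (sL k n y)]) (r2.trans p2) r1
    (by positivity) o1 (by linarith) r3 (by linarith) (uP_V κ n hV hy)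
  have e3 : uP κ n y V - uQ κ ω n y V + (1 - uP κ n y V) = 1 - uQ κ ω n y V := by ring
  rw [e3] at ht
  show (lawOf n β y V a (sL k n y) (lamL cl ce n y) (etaL ce n)).KA ≤ ε * (n * y ^ 6)
  refine hk3.trans ?_
  have ht2 := mul_le_mul_of_nonneg_left ht (show 0 ≤ (n : ℝ) * y ^ 2 by positivity)
  have e4 : (n : ℝ) * y ^ 2 * (ε / 2 * y ^ 4) = ε / 2 * (n * y ^ 6) := by ring
  rw [e4] at ht2
  linarith

/-- **The weak LC with the exponents in one unit.** -/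
theorem lcamp_q {β b₁ b₀ q k : ℝ} (hβ : 0 < β) (hq : 0 < q) (hb : b₀ ≤ b₁) (hb₁ : b₁ ≤ 1 / 10)
    (hqb : 82 * q ≤ b₀) (hk : 0 < k) (hpath : PathV)
    (hfar : LcFarW β b₁ b₀ (23 * q) (10 * q) q k (1 / 4) q q q q (40 * q))
    (hbr : LcBrW β b₁ b₀ (23 * q) q k (1 / 4) q) :
    W.LCampW β b₁ b₀ (23 * q) (10 * q) q k (1 / 4) q :=
  lcamp_of_path (q := q / 2) (s1 := 2 * q) hβ
    ⟨by linarith, hb₁, hb, by linarith, by linarith, by linarith, by linarith, hq, hq,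
      by linarith, by linarith, by linarith, by linarith, by linarith⟩
    hq.le (by linarith) hk (by norm_num) hq.le (by linarith) (by linarith) hpath hfar hbr

end Vale.Agent.P146.H470
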