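import Vale.Agent.P146.H470.Bud

/-!
# The logarithmic form of the window of LC

`y ∈ [n^(-b₁) / A, A n^(-b₀)]`, `V ∈ [y⁵ / A, A n^(-d0) y³]`; constants, powers of `log n` and the
constants `A`, `ε` are absorbed in `(q / 100) * log n`.
-/

open Filter

namespace Vale.Agent.P146.H470

/-- The window of LC. -/
structure LcE (b₁ b₀ d0 q K : ℝ) (n : ℕ) (y V : ℝ) : Prop where
  n0 : (0 : ℝ) < n
  y0 : 0 < y
  V0 : 0 < V
  L1 : 1 ≤ Real.log n
  qL : 0 < q * Real.log n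
  cst : K ≤ q / 100 * Real.log n
  ll : Real.log (Real.log n) ≤ q / 100 * Real.log n
  yl : -b₁ * Real.log n - q / 100 * Real.log n ≤ Real.log y
  yu : Real.log y ≤ -b₀ * Real.log n + q / 100 * Real.log n
  Vl : 5 * Real.log y - q / 100 * Real.log n ≤ Real.log V
  Vu : Real.log V ≤ -d0 * Real.log n + 3 * Real.log y + q / 100 * Real.log n

theorem lcE_ev {b₁ b₀ d0 q A : ℝ} (K : ℝ) (hq : 0 < q) (hA : 1 ≤ A) :
    ∀ᶠ n : ℕ in atTop, ∀ y V : ℝ, (n : ℝ) ^ (-b₁) ≤ A * y → y ≤ A * (n : ℝ) ^ (-b₀) →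
      y ^ 5 ≤ A * V → V ≤ A * ((n : ℝ) ^ (-d0) * y ^ 3) → LcE b₁ b₀ d0 q K n y V := by
  have hθ : 0 < q / 100 := by positivity
  filter_upwards [ev_log hθ (max K (Real.log A)), ev_loglog hθ, ev_three] with n h1 h2 h3 y V
    g1 g2 g3 g4
  obtain ⟨h3, h4⟩ := h3
  have hn0 : (0 : ℝ) < n := by linarith
  have hA0 : 0 < A := by linarith
  have hK := (le_max_left K (Real.log A)).trans h1
  have hLA := (le_max_right K (Real.log A)).trans h1
  have hy : 0 < y := by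
    have : 0 < A * y := lt_of_lt_of_le (Real.rpow_pos_of_pos hn0 _) g1
    exact (pos_iff_pos_of_mul_pos this).1 hA0
  have hV : 0 < V := by
    have : 0 < A * V := lt_of_lt_of_le (by positivity) g3
    exact (pos_iff_pos_of_mul_pos this).1 hA0
  have k1 := Real.log_le_log (by positivity) g1
  have k2 := Real.log_le_log hy g2
  have k3 := Real.log_le_log (by positivity) g3
  have k4 := Real.log_le_log hV g4
  simp (disch := positivity) only [Real.log_mul, Real.log_rpow, Real.log_pow] at k1 k2 k3 k4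
  push_cast at k3 k4
  exact ⟨hn0, hy, hV, h4, mul_pos hq (by linarith), hK, h2, by linarith, by linarith, by linarith,
    by linarith⟩

/-- The exponents of the scalar half of LC. -/
structure LcX (b₁ b₀ d0 q κ ω c1 c4 s1 : ℝ) : Prop where
  q0 : 0 < q
  b1 : b₁ ≤ 1 / 10
  bb : b₀ ≤ b₁
  b0 : 2 * q ≤ b₀
  d : 0 ≤ d0
  κ0 : 2 * q ≤ κ
  κ1 : κ ≤ 1
  ω0 : 0 < ω
  c10 : 0 < c1
  c11 : c1 + c4 ≤ 1 / 2
  s1q : 0 < s1
  s1b : s1 / 2 + q ≤ b₀
  c40 : s1 + q ≤ c4
  dω : c1 / 2 + s1 / 2 + q ≤ ω + d0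

/-- The window of LC with the constants. -/
structure LcF (β A ε b₁ b₀ d0 q κ ω c1 c4 s1 : ℝ) (n : ℕ) (y V : ℝ) : Prop where
  env : LcE b₁ b₀ d0 q (10 * |Real.log β| + 10 * |Real.log A| + 10 * |Real.log ε| + 10000) n y V
  ex : LcX b₁ b₀ d0 q κ ω c1 c4 s1
  β0 : 0 < β
  A1 : 1 ≤ A
  ε0 : 0 < ε

variable {β A ε b₁ b₀ d0 q κ ω c1 c4 s1 : ℝ} {n : ℕ} {y V : ℝ}

lemma LcF.facts (h : LcF β A ε b₁ b₀ d0 q κ ω c1 c4 s1 n y V) :
    0 < q * Real.log n ∧ 10000 ≤ q / 100 * Real.log n ∧ Real.log β ≤ q / 1000 * Real.log n ∧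
      -Real.log β ≤ q / 1000 * Real.log n ∧ Real.log A ≤ q / 1000 * Real.log n ∧
      -Real.log ε ≤ q / 1000 * Real.log n ∧ 1 ≤ Real.log n ∧
      Real.log (Real.log n) ≤ q / 100 * Real.log n ∧
      -(1 / 10) * Real.log n - q / 100 * Real.log n ≤ Real.log y ∧
      Real.log y ≤ -b₀ * Real.log n + q / 100 * Real.log n ∧
      5 * Real.log y - q / 100 * Real.log n ≤ Real.log V ∧
      Real.log V ≤ -d0 * Real.log n + 3 * Real.log y + q / 100 * Real.log n := by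
  have e := h.env
  have hL := e.L1
  have hc := e.cst
  have k1 := abs_nonneg (Real.log β)
  have k2 := abs_nonneg (Real.log A)
  have k3 := le_abs_self (Real.log β)
  have k4 := neg_abs_le (Real.log β)
  have k5 := le_abs_self (Real.log A)
  have k6 := abs_nonneg (Real.log ε)
  have k7 := neg_abs_le (Real.log ε)
  have m1 : b₁ * Real.log n ≤ 1 / 10 * Real.log n :=
    mul_le_mul_of_nonneg_right h.ex.b1 (by linarith)
  have yl := e.yl
  refine ⟨e.qL, by linarith, by linarith, by linarith, by linarith, by linarith, hL, e.ll,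
    by linarith, e.yu, e.Vl, e.Vu⟩

end Vale.Agent.P146.H470
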