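import Vale.Agent.P146.H470.S3T
import Vale.Agent.P146.H470.Env

/-!
# P146: `H470.env_ev` along `EV`
-/

open Filter

namespace Vale.Agent.P146.H470

open Vale.Agent.P146.S3 (EV)

/-- **The window in logarithmic form, eventually in `(n, q)`**, `d` any function of `q`. -/
theorem env_evQ {a0 b₁ A : ℝ} {d : ℝ → ℝ} (K : ℝ) (hA : 1 ≤ A) :
    EV fun n q => ∀ y V : ℝ, (n : ℝ) ^ (-a0 + 1000 * q) ≤ A * y →
      y ≤ A * (n : ℝ) ^ (-b₁) → (n : ℝ) ^ (-d q) * y ^ 3 ≤ A * V →
      V ≤ A * ((n : ℝ) ^ (-d q) * y ^ 3) → Env a0 b₁ (d q) q K n y V := by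
  have hθ : (0 : ℝ) < 1 / 100 := by positivity
  refine S3.EV.imp4 (S3.ev_log hθ (max K (Real.log A))) (S3.ev_loglog hθ) S3.ev_three S3.ev_q0
    fun n q h1 h2 h3 hq y V g1 g2 g3 g4 => ?_
  obtain ⟨h3, h4⟩ := h3
  have hn0 : (0 : ℝ) < n := by linarith
  have hA0 : 0 < A := by linarith
  have hK := (le_max_left K (Real.log A)).trans h1
  have hLA := (le_max_right K (Real.log A)).trans h1
  have hy : 0 < y := by
    have : 0 < A * y := lt_of_lt_of_le (Real.rpow_pos_of_pos hn0 _) g1
    exact (pos_iff_pos_of_mul_pos this).1 hA0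
  have hV : 0 < V := by
    have : 0 < A * V := lt_of_lt_of_le (by positivity) g3
    exact (pos_iff_pos_of_mul_pos this).1 hA0
  have k1 := Real.log_le_log (by positivity) g1
  have k2 := Real.log_le_log hy g2
  have k3 := Real.log_le_log (by positivity) g3
  have k4 := Real.log_le_log hV g4
  simp (disch := positivity) only [Real.log_mul, Real.log_rpow, Real.log_pow] at k1 k2 k3 k4
  push_cast at k3 k4
  exact ⟨hn0, hy, hV, h4, mul_pos hq (by linarith), by linarith, by linarith, by linarith,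
    by linarith, by linarith, by linarith⟩

end Vale.Agent.P146.H470
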