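import Vale.Agent.P146.H470.S3Env
import Vale.Agent.P146.H470.LowA

/-!
# P146: `lw_ev`, `RowLow`, `klow_kw` along `EV`
-/

open MeasureTheory ProbabilityTheory Filter Set

namespace Vale.Agent.P146.H470

open Vale.Agent.P146.H418 Vale.Agent.P146.H643 Vale.Agent.P146.H317 Vale.Agent.P146.H529
open Vale.Agent.P146.S3 (EV)

theorem lw_evQ {a0 b₁ A b : ℝ} (hb : 0 < b) (hA : 1 ≤ A) (ha0 : a0 ≤ 1 / 6) (hb₁ : 0 < b₁) :
    EV fun n q => ∀ y V al s lam η a : ℝ, KW a0 b₁ q A b n y V al s lam η →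
      (n : ℝ) ^ (-(11 * q)) * y ^ 2 ≤ A * a → a ≤ A * ((n : ℝ) ^ (-(10 * q)) * y ^ 2) → a ≤ al →
      LW a0 b₁ q A b n y V al a := by
  refine S3.EV.imp3 (env_evQ (a0 := a0) (b₁ := b₁) (d := fun q => 24 * q)
    (10 * |Real.log b| + 10 * |Real.log A| + 10000) hA) S3.ev_q0
    (S3.ev_qlt (show 0 < b₁ / 100 by positivity)) fun n q hn hq hqb => ?_
  have hb₁ : 100 * q < b₁ := by linarith
  intro y V al s lam η a h h1 h2 h3
  have e := hn y V h.yl h.yu h.Vl h.Vu
  have hA0 : 0 < A := by linarith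
  have hn1 : 1 ≤ n := h.n1.le
  have hn0 := e.n0
  have hy := e.y0
  have ha : 0 < a := by
    have : 0 < A * a := lt_of_lt_of_le (by positivity) h1
    exact (pos_iff_pos_of_mul_pos this).1 hA0
  have h4 := h.sg.abs_le hn1 hb h.y0.le h.ap h.V0
  exact ⟨e, hq, hb, hA, ha0, hb₁, ha, h1, h2, h3, (le_abs_self _).trans h4⟩

/-- **The size of the row equation at the typical points** (the remaining hypothesis). -/
def RowLowQ (a0 b₁ A b : ℝ) : Prop :=
  EV fun n q => ∀ y V al s lam η a : ℝ, KW a0 b₁ q A b n y V al s lam η →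
    LW a0 b₁ q A b n y V al a →
    ∀ T, T1 q n y / 2 ≤ T → T ≤ T2 q n y → ∀ u ∈ Icc (1 - 2 * dl q n) (1 - dl q n),
    ∀ m ∈ Finset.Icc (mm q n y) (2 * mm q n y), ∀ i0 : Fin n, i0.1 + m = n →
    TypL (lawOf n b y V al s lam η) (1 - 2 * dl q n) (1 - dl q n) (mm q n y) (2 * mm q n y) T u m →
    XE (lawOf n b y V al s lam η) (rz b y al)
        (PL (lawOf n b y V al s lam η) ((1 - hh q n) * (2 * a) - en q b n y V a) (hh q n / 2) u T)
        (LrL (lawOf n b y V al s lam η) ((1 - hh q n) * (2 * a) - en q b n y V a) (hh q n / 2)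
          u T) m (1 - T) u i0 ≤ (n : ℝ) ^ (-(39 * q)) * y ^ 2 ∧
      CC (lawOf n b y V al s lam η) (Sn n m) (1 - T) u ≤ (n : ℝ) ^ (100 * q) * y ^ 2 ∧
      (lawOf n b y V al s lam η).rk (Sn n m) (1 - T) u ≤ (n : ℝ) ^ (-(100 * q)) * y ^ 2

/-- **The lower bound of the relative entropy, from the size of the row equation.** -/
theorem klow_kwQ {a0 b₁ A b : ℝ} (hrow : RowLowQ a0 b₁ A b) :
    EV fun n q => ∀ y V al s lam η a : ℝ, KW a0 b₁ q A b n y V al s lam η →
      LW a0 b₁ q A b n y V al a →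
      n * y ^ 2 * b ^ 2 / 4 * (J (b * y) (2 * a) (V / b ^ 2) - (n : ℝ) ^ (-(36 * q)) * y ^ 4) ≤
        (lawOf n b y V al s lam η).KA := by
  unfold RowLowQ at hrow
  refine S3.EV.imp1 hrow fun n q hrow => ?_
  intro y V al s lam η a h w
  obtain ⟨hA, hη, hvp, hs2, hy1⟩ := kw_adm h w
  have hn := w.env.n0
  have hy := w.env.y0
  have hV := w.env.V0
  have hb := w.b0
  have ha := w.ap
  have hhp := w.hh_pos
  have hh1 := w.hh_le
  have hdp := w.dl_pos
  have hd1 := w.dl_le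
  have hT2 := w.T2_le
  have hT1p := w.T1_pos
  have hT12 := w.T1_le
  have haT := w.a_T2
  have hal := w.al_pos
  have hal1 := w.al_le
  obtain ⟨N, hN1, hN2⟩ := exists_level hhp hT1p (show T1 q n y ≤ 1 by linarith)
  have hT1N : T1 q n y / 2 ≤ gg (hh q n) N := by
    have := gg_pos hhp.le N
    nlinarith
  have hE : 0 ≤ (n : ℝ) ^ (-(39 * q)) * y ^ 2 := by positivity
  have hR0 : 0 ≤ Rn q n y := by
    unfold Rn
    positivity
  have hthp := w.th_pos
  have hvV : V - s ^ 2 ≤ V := by linarith [sq_nonneg s]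
  have key := klow_n (L := lawOf n b y V al s lam η) hA (show η ≤ 1 / 2 by linarith)
    (show s ≠ 0 from h.s0.ne') hy hy1 (r0 := rz b y al) (by
      show cc n b s al = s ^ 2 * n * (1 - (1 - y) * rz b y al)
      rw [rz_eq hy1]
      unfold cc
      ring) (by
      show 0 < b * (1 - (1 - y) * rz b y al)
      rw [b_rz hb hy1]
      linarith)
    (m1 := mm q n y) (m2 := 2 * mm q n y) (N := N) w.mm_one (by omega) w.mm_lt
    (u0 := 1 - 2 * dl q n) (u1 := 1 - dl q n) (by linarith) (by linarith) (by linarith)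
    (h := hh q n) (a := 2 * a) (w := V / b ^ 2) (e := en q b n y V a) (e' := hh q n / 2)
    (θ := th q n) (T₂ := T2 q n y) (R := Rn q n y) (E0 := (n : ℝ) ^ (-(39 * q)) * y ^ 2)
    (E1 := 4 * (th q n * Rn q n y ^ 2) + 2 * ((n : ℝ) ^ (-(39 * q)) * y ^ 2))
    (by linarith) (by positivity) hhp.le (by linarith) w.en_nonneg (hN1.trans hT12)
    (by nlinarith) (by linarith) w.rho_le (by linarith) (by linarith) (by
      show b * (1 - (1 - y) * rz b y al) ≤ _
      rw [b_rz hb hy1]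
      linarith) (by
      show (n : ℝ) / (n - ((2 * mm q n y : ℕ) : ℝ)) / (b * (1 - (1 - y) * rz b y al)) ^ 2 +
        2 * (b * y * (b * (1 - (1 - y) * rz b y al)) * ((1 - dl q n) * (V - s ^ 2) / b ^ 2)) ≤ _
      rw [b_rz hb hy1]
      have := w.mass (vp := V - s ^ 2) (u := 1 - dl q n) hvp.le hvV (by linarith) (by linarith)
      push_cast
      exact this) (by
      show b * y * (b * (1 - (1 - y) * rz b y al)) * ((1 - dl q n) * (V - s ^ 2) / b ^ 2) ≤ _
      rw [b_rz hb hy1]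
      exact w.wf_le (vp := V - s ^ 2) (u := 1 - dl q n) hvp.le hvV (by linarith) (by linarith))
    (by
      show (1 - hh q n) * (V / b ^ 2) ≤ (1 - hh q n / 2) * ((1 - 2 * dl q n) * (V - s ^ 2) / b ^ 2)
      exact w.ww hs2)
    hthp w.th_le hE (by positivity) (by
      intro T hT u hu m hm i0 hi0 hty
      obtain ⟨x1, x2, x3⟩ := hrow y V al s lam η a h w T (hT1N.trans hT.1) hT.2 u hu m hm i0 hi0
        hty
      refine ⟨x1, ?_⟩
      have hr := w.rest h.η0 h.η1 (by linarith)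
      have y1 : 1 / th q n * (η * (2 + η)) ^ 2 *
          CC (lawOf n b y V al s lam η) (Sn n m) (1 - T) u ≤
          1 / th q n * (η * (2 + η)) ^ 2 * ((n : ℝ) ^ (100 * q) * y ^ 2) :=
        mul_le_mul_of_nonneg_left x2 (by positivity)
      have y2 : 1 / th q n * (lawOf n b y V al s lam η).rk (Sn n m) (1 - T) u ≤
          1 / th q n * ((n : ℝ) ^ (-(100 * q)) * y ^ 2) :=
        mul_le_mul_of_nonneg_left x3 (by positivity)
      have y3 : 0 ≤ th q n * Rn q n y ^ 2 := by positivity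
      show 2 * th q n * Rn q n y ^ 2 + (n : ℝ) ^ (-(39 * q)) * y ^ 2 +
        1 / th q n * (η * (2 + η)) ^ 2 * CC (lawOf n b y V al s lam η) (Sn n m) (1 - T) u +
        1 / th q n * (lawOf n b y V al s lam η).rk (Sn n m) (1 - T) u + 1 / (n : ℝ) ≤ _
      linarith)
  refine le_trans ?_ key
  have ht := w.total (gg_pos hhp.le N).le hN1
  show n * y ^ 2 * b ^ 2 / 4 * (J (b * y) (2 * a) (V / b ^ 2) - (n : ℝ) ^ (-(36 * q)) * y ^ 4) ≤
    n * y ^ 2 * b ^ 2 / 4 * (J (b * y) (2 * a) (V / b ^ 2) -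
      (5 * hh q n * (V / b ^ 2 * Rn q n y + b * y * Rn q n y ^ 3) +
      2 * (hh q n * (2 * a) + en q b n y V a) * Rn q n y ^ 2 + 2 * gg (hh q n) N * Rn q n y ^ 2 +
      2 * (V / b ^ 2) ^ 2 / (T2 q n y - 2 * a) +
      T2 q n y * (4 * (th q n * Rn q n y ^ 2) + 2 * ((n : ℝ) ^ (-(39 * q)) * y ^ 2))))
  refine mul_le_mul_of_nonneg_left ?_ (by positivity)
  linarith

end Vale.Agent.P146.H470
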