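import Vale.Agent.P146.H470.S3LowA
import Vale.Agent.P146.H122.S3Defs
import Vale.Agent.P146.H529.Par2
import Vale.Agent.P146.H119.S3Par

/-!
# P146: `KampLowS` from the size of the row equation, for the second choice of the modulated field
-/

open MeasureTheory ProbabilityTheory Filter Set

namespace Vale.Agent.P146.S3

open Vale.Agent.P146.H418 Vale.Agent.P146.H643 Vale.Agent.P146.H317 Vale.Agent.P146.H529
  Vale.Agent.P146.H178 Vale.Agent.P146.H470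

lemma rowLowS_iff {b₁ A b : ℝ} : RowLowS b₁ A b ↔ RowLowQ (1 / 6) b₁ A b := Iff.rfl

/-- the lower bound of the relative entropy, from `RowLowS` -/
theorem klow_kwS {b₁ A b : ℝ} (hrow : RowLowS b₁ A b) :
    EV fun n q => ∀ y V al s lam η a : ℝ, KW (1 / 6) b₁ q A b n y V al s lam η →
      LW (1 / 6) b₁ q A b n y V al a →
      n * y ^ 2 * b ^ 2 / 4 * (J (b * y) (2 * a) (V / b ^ 2) - (n : ℝ) ^ (-(36 * q)) * y ^ 4) ≤
        (lawOf n b y V al s lam η).KA :=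
  klow_kwQ (rowLowS_iff.1 hrow)

/-- `KampLowS` from the window: abstract form -/
theorem kampLow_ofS {β b₁ : ℝ} {sF lF hF : ℝ → ℕ → ℝ → ℝ → ℝ} (hβ : 0 < β) (hb₁ : 0 < b₁)
    (hkw : ∀ A : ℝ, 1 ≤ A → EV fun n q => ∀ y V al : ℝ,
      (n : ℝ) ^ (-(1 / 6 : ℝ) + 1000 * q) ≤ A * y → y ≤ A * (n : ℝ) ^ (-b₁) →
      (n : ℝ) ^ (-(24 * q)) * y ^ 3 ≤ A * V → V ≤ A * ((n : ℝ) ^ (-(24 * q)) * y ^ 3) →
      SG n β y V al → H178.AP β (q / 2) n y (2 * V) →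
      KW (1 / 6) b₁ q A β n y V al (sF q n y V) (lF q n y V) (hF q n y V))
    (hrow : ∀ A : ℝ, 1 ≤ A → RowLowS b₁ A β) :
    KampLowS β b₁ (fun q => Kam β (sF q) (lF q) (hF q)) := by
  intro A hA
  refine EV.imp3 (hkw A hA) (lw_evQ (a0 := 1 / 6) (b₁ := b₁) (A := A) (b := β) hβ hA le_rfl hb₁)
    (klow_kwS (hrow A hA)) fun n q k1 k2 k3 => ?_
  intro y hy hyu V hVl hVu a hal hau a0' hsg haa hap
  have hkw' := k1 y V a0' hy hyu hVl hVu hsg hap
  have hlw := k2 y V a0' _ _ _ a hkw' hal hau haa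
  have h := k3 y V a0' _ _ _ a hkw' hlw
  show _ ≤ Kam β (sF q) (lF q) (hF q) n y V a0'
  rw [Kam_lawOf]
  have e1 : -(24 * q + 11 * q + q) = -(36 * q) := by ring
  rw [e1]
  exact h

/-- **`KampLowS`**, `s² = n^(-80q) V`, from the size of the row equation -/
theorem kampLow_twoS {β b₁ : ℝ} (hβ : 0 < β) (hb₁ : 0 < b₁)
    (hrow : ∀ A : ℝ, 1 ≤ A → RowLowS b₁ A β) :
    KampLowS β b₁ (fun q => Kam β (sB q) (lA q) (hA q)) :=
  kampLow_ofS hβ hb₁ (fun _ hA => kw_two le_rfl hA) hrow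

end Vale.Agent.P146.S3
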