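import Vale.Agent.P146.H470.S3LowB
import Vale.Agent.P146.H620.S3KLow

/-!
# P146: the lower half of the formula, `s² = n^(-80q) V`, eventually in the size and the unit
-/

open MeasureTheory ProbabilityTheory Filter Set

namespace Vale.Agent.P146.S3

open Vale.Agent.P146.H529

theorem rowLowS {b₁ A b : ℝ} (hb : 0 < b) (hA : 1 ≤ A) (hb₁ : 0 < b₁) : RowLowS b₁ A b :=
  row_low hb hA le_rfl hb₁

/-- **`KampLowS`.** -/
theorem kampLowS {β b₁ : ℝ} (hβ : 0 < β) (hb₁ : 0 < b₁) :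
    KampLowS β b₁ (fun q => Kam β (sB q) (lA q) (hA q)) :=
  kampLow_twoS hβ hb₁ fun _ hA => rowLowS hβ hA hb₁

end Vale.Agent.P146.S3
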