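import Vale.Agent.P146.H122.QF

/-!
# P146: combinators for `EV`

`EV.imp1 .. EV.imp9`: the curried form of `filter_upwards [A, B, ..] with n h1 h2 ..`: write
`refine EV.imp2 A B fun n q h1 h2 => ?_` and keep the rest of the proof.
-/

open Filter

namespace Vale.Agent.P146.S3

variable {P1 P2 P3 P4 P5 P6 P7 P8 P9 Q : ℕ → ℝ → Prop}

theorem EV.imp1 (h1 : EV P1)
    (h : ∀ (n : ℕ) (q : ℝ), P1 n q → Q n q) :
    EV Q := by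
  filter_upwards [h1] with p g1
  exact h p.1 p.2 g1

theorem EV.imp2 (h1 : EV P1) (h2 : EV P2)
    (h : ∀ (n : ℕ) (q : ℝ), P1 n q → P2 n q → Q n q) :
    EV Q := by
  filter_upwards [h1, h2] with p g1 g2
  exact h p.1 p.2 g1 g2

theorem EV.imp3 (h1 : EV P1) (h2 : EV P2) (h3 : EV P3)
    (h : ∀ (n : ℕ) (q : ℝ), P1 n q → P2 n q → P3 n q → Q n q) :
    EV Q := by
  filter_upwards [h1, h2, h3] with p g1 g2 g3
  exact h p.1 p.2 g1 g2 g3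

theorem EV.imp4 (h1 : EV P1) (h2 : EV P2) (h3 : EV P3) (h4 : EV P4)
    (h : ∀ (n : ℕ) (q : ℝ), P1 n q → P2 n q → P3 n q → P4 n q → Q n q) :
    EV Q := by
  filter_upwards [h1, h2, h3, h4] with p g1 g2 g3 g4
  exact h p.1 p.2 g1 g2 g3 g4

theorem EV.imp5 (h1 : EV P1) (h2 : EV P2) (h3 : EV P3) (h4 : EV P4) (h5 : EV P5)
    (h : ∀ (n : ℕ) (q : ℝ), P1 n q → P2 n q → P3 n q → P4 n q → P5 n q → Q n q) :
    EV Q := by
  filter_upwards [h1, h2, h3, h4, h5] with p g1 g2 g3 g4 g5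
  exact h p.1 p.2 g1 g2 g3 g4 g5

theorem EV.imp6 (h1 : EV P1) (h2 : EV P2) (h3 : EV P3) (h4 : EV P4) (h5 : EV P5) (h6 : EV P6)
    (h : ∀ (n : ℕ) (q : ℝ), P1 n q → P2 n q → P3 n q → P4 n q → P5 n q → P6 n q → Q n q) :
    EV Q := by
  filter_upwards [h1, h2, h3, h4, h5, h6] with p g1 g2 g3 g4 g5 g6
  exact h p.1 p.2 g1 g2 g3 g4 g5 g6

theorem EV.imp7 (h1 : EV P1) (h2 : EV P2) (h3 : EV P3) (h4 : EV P4) (h5 : EV P5) (h6 : EV P6) (h7 : EV P7)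
    (h : ∀ (n : ℕ) (q : ℝ), P1 n q → P2 n q → P3 n q → P4 n q → P5 n q → P6 n q → P7 n q → Q n q) :
    EV Q := by
  filter_upwards [h1, h2, h3, h4, h5, h6, h7] with p g1 g2 g3 g4 g5 g6 g7
  exact h p.1 p.2 g1 g2 g3 g4 g5 g6 g7

theorem EV.imp8 (h1 : EV P1) (h2 : EV P2) (h3 : EV P3) (h4 : EV P4) (h5 : EV P5) (h6 : EV P6) (h7 : EV P7) (h8 : EV P8)
    (h : ∀ (n : ℕ) (q : ℝ), P1 n q → P2 n q → P3 n q → P4 n q → P5 n q → P6 n q → P7 n q → P8 n q → Q n q) :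
    EV Q := by
  filter_upwards [h1, h2, h3, h4, h5, h6, h7, h8] with p g1 g2 g3 g4 g5 g6 g7 g8
  exact h p.1 p.2 g1 g2 g3 g4 g5 g6 g7 g8

theorem EV.imp9 (h1 : EV P1) (h2 : EV P2) (h3 : EV P3) (h4 : EV P4) (h5 : EV P5) (h6 : EV P6) (h7 : EV P7) (h8 : EV P8) (h9 : EV P9)
    (h : ∀ (n : ℕ) (q : ℝ), P1 n q → P2 n q → P3 n q → P4 n q → P5 n q → P6 n q → P7 n q → P8 n q → P9 n q → Q n q) :
    EV Q := by
  filter_upwards [h1, h2, h3, h4, h5, h6, h7, h8, h9] with p g1 g2 g3 g4 g5 g6 g7 g8 g9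
  exact h p.1 p.2 g1 g2 g3 g4 g5 g6 g7 g8 g9

end Vale.Agent.P146.S3
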